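import Mathlib
import Vale.Agent.P150.Disorder
import Vale.Agent.P150.GaussIBP
import Vale.Agent.P150.Beta1.Defs

/-!
# The operator norm event for the words, and crude polynomial bounds
-/

namespace Vale.Agent.P150.Beta1.Words

open MeasureTheory ProbabilityTheory Finset Real

/-- The squared operator norm of `J` is at most `S`. -/
def OpSq {ι : Type*} [Fintype ι] (J : ι → ι → ℝ) (S : ℝ) : Prop :=
  ∀ a : ι → ℝ, ∑ i, act J a i ^ 2 ≤ S * ∑ i, a i ^ 2

variable {n : ℕ}

/-- The squared operator norm allowed on the event. -/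
noncomputable def radSq (β : ℝ) : ℝ := (258 * β) ^ 2 + 1

lemma one_le_radSq (β : ℝ) : 1 ≤ radSq β := by
  have := sq_nonneg (258 * β)
  rw [radSq]
  linarith

/-- The event that the operator norm is bounded. -/
def Ev (β : ℝ) (n : ℕ) : Set (Fin n × Fin n → ℝ) := {g | OpSq (skCoupling β g) (radSq β)}

lemma skCoupling_continuous (β : ℝ) (i j : Fin n) :
    Continuous fun g : Fin n × Fin n → ℝ => skCoupling β g i j := by
  simp only [skCoupling]
  split_ifs <;> fun_prop

lemma skCoupling_sub (β : ℝ) (g g' : Fin n × Fin n → ℝ) (i j : Fin n) :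
    skCoupling β (g - g') i j = skCoupling β g i j - skCoupling β g' i j := by
  simp only [skCoupling, Pi.sub_apply]
  split_ifs <;> ring

lemma skCoupling_neg (β : ℝ) (g : Fin n × Fin n → ℝ) (i j : Fin n) :
    skCoupling (-β) g i j = -skCoupling β g i j := by
  simp only [skCoupling]
  split_ifs <;> ring

lemma skCoupling_neg_arg (β : ℝ) (g : Fin n × Fin n → ℝ) (i j : Fin n) :
    skCoupling β (-g) i j = -skCoupling β g i j := by
  simp only [skCoupling, Pi.neg_apply]
  split_ifs <;> ring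

lemma measurableSet_ev (β : ℝ) (n : ℕ) : MeasurableSet (Ev β n) := by
  refine IsClosed.measurableSet ?_
  have e : Ev β n = ⋂ a : Fin n → ℝ,
      {g | ∑ i, act (skCoupling β g) a i ^ 2 ≤ radSq β * ∑ i, a i ^ 2} := by
    ext g
    simp [Ev, OpSq]
  rw [e]
  refine isClosed_iInter fun a => isClosed_le (continuous_finsetSum _ fun i _ => ?_)
    continuous_const
  exact (continuous_finsetSum _ fun j _ =>
    (skCoupling_continuous β i j).mul continuous_const).pow 2

lemma zero_mem_ev (β : ℝ) (n : ℕ) : (0 : Fin n × Fin n → ℝ) ∈ Ev β n := by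
  intro a
  simp [act, skCoupling]
  have := one_le_radSq β
  positivity

/-- Squared Frobenius norm of the couplings. -/
lemma frob_coupling_le (β : ℝ) (g : Fin n × Fin n → ℝ) :
    ∑ i, ∑ j, skCoupling β g i j ^ 2 ≤ 2 * β ^ 2 / n * ∑ p, g p ^ 2 := by
  have h2 : ∀ i j, skCoupling β g i j ^ 2
      ≤ β ^ 2 / n * g (i, j) ^ 2 + β ^ 2 / n * g (j, i) ^ 2 := by
    intro i j
    have hc : (β / √n) ^ 2 = β ^ 2 / n := by rw [div_pow, sq_sqrt (Nat.cast_nonneg n)]
    have h1 : 0 ≤ β ^ 2 / n * g (i, j) ^ 2 := by positivity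
    have h2 : 0 ≤ β ^ 2 / n * g (j, i) ^ 2 := by positivity
    simp only [skCoupling]
    split_ifs
    · rw [mul_pow, hc]; linarith
    · rw [mul_pow, hc]; linarith
    · rw [zero_pow two_ne_zero]; linarith
  refine (sum_le_sum fun i _ => sum_le_sum fun j _ => h2 i j).trans_eq ?_
  simp only [sum_add_distrib, ← mul_sum]
  rw [sum_comm (f := fun i j => g (j, i) ^ 2), Fintype.sum_prod_type]
  ring

/-- The crude size of the couplings; at least one. -/
noncomputable def crude (β : ℝ) (g : Fin n × Fin n → ℝ) : ℝ :=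
  (1 + 2 * β ^ 2) * (1 + ∑ p, g p ^ 2)

lemma one_le_crude (β : ℝ) (g : Fin n × Fin n → ℝ) : 1 ≤ crude β g :=
  one_le_mul_of_one_le_of_one_le (le_add_of_nonneg_right (by positivity))
    (le_add_of_nonneg_right (sum_nonneg fun p _ => sq_nonneg _))

lemma opSq_crude (β : ℝ) (g : Fin n × Fin n → ℝ) : OpSq (skCoupling β g) (crude β g) := by
  intro a
  have hs : 0 ≤ ∑ p, g p ^ 2 := sum_nonneg fun p _ => sq_nonneg _
  calc ∑ i, act (skCoupling β g) a i ^ 2
      ≤ ∑ i, (∑ j, skCoupling β g i j ^ 2) * ∑ j, a j ^ 2 :=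
        sum_le_sum fun i _ => sum_mul_sq_le_sq_mul_sq univ _ _
    _ = (∑ i, ∑ j, skCoupling β g i j ^ 2) * ∑ j, a j ^ 2 := by rw [sum_mul]
    _ ≤ _ := by
      refine mul_le_mul_of_nonneg_right ((frob_coupling_le β g).trans ?_)
        (sum_nonneg fun j _ => sq_nonneg _)
      have h1 : 2 * β ^ 2 / n ≤ 2 * β ^ 2 := by
        rcases Nat.eq_zero_or_pos n with h | h
        · subst h; simp; positivity
        · exact div_le_self (by positivity) (by exact_mod_cast h)
      calc 2 * β ^ 2 / n * ∑ p, g p ^ 2 ≤ 2 * β ^ 2 * ∑ p, g p ^ 2 :=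
            mul_le_mul_of_nonneg_right h1 hs
        _ ≤ (1 + 2 * β ^ 2) * (1 + ∑ p, g p ^ 2) :=
            mul_le_mul (by linarith) (by linarith) hs (by positivity)

lemma polyGrowth_of_crude {β A : ℝ} {k : ℕ} {f : (Fin n × Fin n → ℝ) → ℝ}
    (h : ∀ g, |f g| ≤ A * crude β g ^ k) : PolyGrowth f := by
  refine ⟨|A| * (1 + 2 * β ^ 2) ^ k, 2 * k, fun g => (h g).trans ?_⟩
  have h0 : 0 ≤ ∑ p, |g p| := sum_nonneg fun p _ => abs_nonneg _
  have h1 : 1 + ∑ p, g p ^ 2 ≤ (1 + ∑ p, |g p|) ^ 2 := by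
    have h3 : ∑ p, g p ^ 2 ≤ (∑ p, |g p|) ^ 2 := by
      simpa [sq_abs] using sum_sq_le_sq_sum_of_nonneg (s := univ) (f := fun p => |g p|)
        fun p _ => abs_nonneg _
    have : (1 + ∑ p, |g p|) ^ 2 = 1 + 2 * ∑ p, |g p| + (∑ p, |g p|) ^ 2 := by ring
    linarith
  have hc : 0 ≤ crude β g := zero_le_one.trans (one_le_crude β g)
  calc A * crude β g ^ k ≤ |A| * crude β g ^ k :=
        mul_le_mul_of_nonneg_right (le_abs_self A) (pow_nonneg hc k)
    _ ≤ |A| * ((1 + 2 * β ^ 2) * (1 + ∑ p, |g p|) ^ 2) ^ k := by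
        gcongr
        exact mul_le_mul_of_nonneg_left h1 (by positivity)
    _ = _ := by rw [mul_pow, ← pow_mul]; ring

lemma integrable_of_crude {β A : ℝ} {k : ℕ} {f : (Fin n × Fin n → ℝ) → ℝ} (hc : Continuous f)
    (h : ∀ g, |f g| ≤ A * crude β g ^ k) : Integrable f (gauss (Fin n × Fin n)) :=
  (polyGrowth_of_crude h).integrable hc

lemma gauss_map_neg (ι : Type*) [Fintype ι] [DecidableEq ι] :
    (gauss ι).map (fun g => -g) = gauss ι := by
  have h := gauss_map_rowMap (fun i k : ι => if i = k then (-1:ℝ) else 0) (fun i j => by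
    rcases eq_or_ne i j with rfl | h
    · simp
    · simp [h])
  convert h using 2
  funext g i
  simp [rowMap]

lemma gauss_badArray_wide {b : ℝ} (hb : 0 ≤ b) {n : ℕ} (hn : 0 < n) :
    gauss (Fin n × Fin n) (badArray b (√2 * b * 32) (b ^ 2 * 65) (b * 258) n)
      ≤ ENNReal.ofReal (6 * (n : ℝ) ^ 2 * exp (-(8 * n))) := by
  rw [show √2 * b * 32 = √2 * b * (64 / 2) by norm_num,
    show b ^ 2 * 65 = b ^ 2 * (1 + 64) by norm_num,
    show b * 258 = b * (2 + 4 * 64) by norm_num, gauss_badArray_eq]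
  set q := exp (-(8 * (n : ℝ))) with hq
  have hn1 : (1:ℝ) ≤ n := Nat.one_le_cast.2 hn
  have hsq : √(n : ℝ) ^ 2 = n := sq_sqrt (Nat.cast_nonneg n)
  have h2n : (2:ℝ) ^ n ≤ exp n := by
    have h1 : (2:ℝ) ≤ exp 1 := by linarith [add_one_le_exp (1:ℝ)]
    calc (2:ℝ) ^ n ≤ exp 1 ^ n := by gcongr
      _ = exp n := by rw [← exp_nat_mul, mul_one]
  have hchi : ∀ R : ℝ, 36 * (n:ℝ) ≤ R → exp (-(1/4) * R) * 2 ^ n ≤ q := fun R hR => by
    refine (mul_le_mul_of_nonneg_left h2n (exp_pos _).le).trans ?_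
    rw [← exp_add]
    exact exp_le_exp.2 (by linarith)
  have hstep : stepFail (√n * (1 + 64)) (√n * 64) (1/4) 2 n ≤ 3 * q := by
    rw [stepFail]
    have h1 := hchi ((√n * (1 + 64)) ^ 2) (by rw [mul_pow, hsq]; linarith)
    have h2 : exp (-(√n * 64) ^ 2 / 8) ≤ q := by
      refine exp_le_exp.2 ?_
      rw [mul_pow, hsq]
      linarith
    linarith
  have b1 := gauss_edge (L := √n * (2 + 3 * 64)) (r := √n * (1 + 64)) (s := √n * 64)
    (a := 1/4) (C := 2) (by positivity) (by positivity) (by norm_num) (by norm_num)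
    (by norm_num) (le_of_eq (by ring)) n le_rfl (0 : Fin n → ℝ) (by simp)
  have b2 : ∀ p : Fin n × Fin n, gauss (Fin n × Fin n) {A | 64 / 2 * √n < |A p|}
      ≤ ENNReal.ofReal (2 * q) := fun p => by
    refine (gauss_coord_tail p (by positivity)).trans (ENNReal.ofReal_le_ofReal ?_)
    have : exp (-(64 / 2 * √n) ^ 2 / 4) ≤ q := by
      refine exp_le_exp.2 ?_
      rw [mul_pow, hsq]
      linarith
    linarith
  have b3 : ∀ i : Fin n, gauss (Fin n × Fin n) {A | (n : ℝ) * (1 + 64)
      < ∑ j : {j // j ≠ i}, ((A (i, j.1) + A (j.1, i)) / √2) ^ 2} ≤ ENNReal.ofReal q := fun i =>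
    (gauss_row_tail i (a := 1/4) (C := 2) (by norm_num) (by norm_num) (by norm_num)).trans
      (ENNReal.ofReal_le_ofReal (hchi _ (by linarith)))
  refine (measure_mono (offdiag_subset hb hn)).trans ((measure_union_le _ _).trans
    ((add_le_add b1 ((measure_union_le _ _).trans (add_le_add
      ((measure_iUnion_fintype_le _ _).trans (sum_le_sum fun p _ => b2 p))
      ((measure_iUnion_fintype_le _ _).trans (sum_le_sum fun i _ => b3 i))))).trans ?_))
  rw [sum_const, sum_const, card_univ, card_univ, Fintype.card_prod, Fintype.card_fin]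
  simp only [nsmul_eq_mul]
  have hq0 : 0 ≤ q := (exp_pos _).le
  have hn0 : (0:ℝ) ≤ n := by linarith
  refine le_trans (add_le_add (mul_le_mul le_rfl (ENNReal.ofReal_le_ofReal hstep) bot_le bot_le)
    le_rfl) ?_
  rw [← ENNReal.ofReal_natCast, ← ENNReal.ofReal_natCast, ← ENNReal.ofReal_mul (by positivity),
    ← ENNReal.ofReal_mul (by positivity), ← ENNReal.ofReal_mul (by positivity),
    ← ENNReal.ofReal_add (by positivity) (by positivity),
    ← ENNReal.ofReal_add (by positivity) (by positivity)]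
  refine ENNReal.ofReal_le_ofReal ?_
  push_cast
  have := mul_le_mul_of_nonneg_right hn1 (mul_nonneg hn0 hq0)
  linarith

/-- A quadratic form bound on both sides gives the operator norm. -/
lemma opSq_of_quad {ι : Type*} [Fintype ι] {J : ι → ι → ℝ} (hs : ∀ i j, J i j = J j i) {Λ : ℝ}
    (h : ∀ a : ι → ℝ, |∑ i, ∑ j, J i j * a i * a j| ≤ Λ * ∑ i, a i ^ 2) :
    OpSq J (Λ ^ 2) := by
  intro a
  set v := act J a with hv
  have key : ∀ b : ι → ℝ, 4 * ∑ i, b i * v i
      = (∑ i, ∑ j, J i j * (a i + b i) * (a j + b j))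
        - ∑ i, ∑ j, J i j * (a i - b i) * (a j - b j) := by
    intro b
    have e : ∑ i, b i * v i = ∑ i, ∑ j, J i j * b i * a j := by
      simp only [hv, act, mul_sum]
      exact sum_congr rfl fun i _ => sum_congr rfl fun j _ => by ring
    have e2 : ∑ i, ∑ j, J i j * a i * b j = ∑ i, ∑ j, J i j * b i * a j := by
      rw [sum_comm]
      exact sum_congr rfl fun i _ => sum_congr rfl fun j _ => by rw [hs]; ring
    rw [e, ← sum_sub_distrib]
    simp only [← sum_sub_distrib]
    have : ∀ i j, J i j * (a i + b i) * (a j + b j) - J i j * (a i - b i) * (a j - b j)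
        = 2 * (J i j * a i * b j) + 2 * (J i j * b i * a j) := fun i j => by ring
    simp only [this, sum_add_distrib, ← mul_sum]
    linarith
  have bound : ∀ b : ι → ℝ, 4 * ∑ i, b i * v i
      ≤ 2 * Λ * (∑ i, a i ^ 2 + ∑ i, b i ^ 2) := by
    intro b
    rw [key]
    have h1 := (abs_le.1 (h (fun i => a i + b i))).2
    have h2 := (abs_le.1 (h (fun i => a i - b i))).1
    have e : ∑ i, (a i + b i) ^ 2 + ∑ i, (a i - b i) ^ 2
        = 2 * (∑ i, a i ^ 2 + ∑ i, b i ^ 2) := by
      rw [mul_add, mul_sum, mul_sum, ← sum_add_distrib, ← sum_add_distrib]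
      exact sum_congr rfl fun i _ => by ring
    calc _ ≤ Λ * (∑ i, (a i + b i) ^ 2) + Λ * ∑ i, (a i - b i) ^ 2 := by linarith
      _ = _ := by rw [← mul_add, e]; ring
  rcases eq_or_ne Λ 0 with rfl | hΛ
  · have := bound v
    have h2 : ∑ i, v i * v i = ∑ i, v i ^ 2 := sum_congr rfl fun i _ => (sq (v i)).symm
    rw [h2] at this
    simp at this ⊢
    linarith
  · have hΛ0 : 0 < Λ ∨ Λ < 0 := lt_or_gt_of_ne hΛ.symm
    rcases hΛ0 with hp | hneg
    · have := bound fun i => v i / Λ
      have e1 : ∑ i, v i / Λ * v i = (∑ i, v i ^ 2) / Λ := by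
        rw [sum_div]; exact sum_congr rfl fun i _ => by ring
      have e2 : ∑ i, (v i / Λ) ^ 2 = (∑ i, v i ^ 2) / Λ ^ 2 := by
        rw [sum_div]; exact sum_congr rfl fun i _ => by ring
      rw [e1, e2] at this
      field_simp at this
      linarith
    · have ha : ∑ i, a i ^ 2 = 0 := by
        refine le_antisymm ?_ (sum_nonneg fun i _ => sq_nonneg _)
        by_contra hc
        push Not at hc
        have h3 := (abs_nonneg _).trans (h a)
        have := mul_neg_of_neg_of_pos hneg hc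
        linarith
      have h0 : ∀ i, a i = 0 := fun i => pow_eq_zero_iff two_ne_zero |>.1
        ((sum_eq_zero_iff_of_nonneg fun i _ => sq_nonneg (a i)).1 ha i (mem_univ i))
      simp [hv, act, h0]

/-- The operator norm event has exponentially small complement. -/
lemma gauss_ev_compl (β : ℝ) {n : ℕ} (hn : 0 < n) :
    (gauss (Fin n × Fin n)).real (Ev β n)ᶜ ≤ exp (-(2 * n)) := by
  set B := badArray |β| (√2 * |β| * 32) (|β| ^ 2 * 65) (|β| * 258) n with hB
  have hsub : (Ev β n)ᶜ ⊆ B ∪ (fun g => -g) ⁻¹' B := by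
    intro g hg
    by_contra hc
    simp only [Set.mem_union, Set.mem_preimage, not_or, hB, badArray, Set.mem_compl_iff,
      not_not] at hc
    obtain ⟨⟨-, -, h1⟩, -, -, h2⟩ := hc
    refine hg ?_
    have hquad : ∀ a : Fin n → ℝ, |∑ i, ∑ j, skCoupling β g i j * a i * a j|
        ≤ |β| * 258 * ∑ i, a i ^ 2 := by
      intro a
      have e2 := h2 a
      have e1 := h1 a
      simp only [skCoupling_neg_arg, neg_mul, sum_neg_distrib] at e2
      rcases abs_choice β with hb | hb
      · rw [hb] at e1 e2 ⊢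
        rw [abs_le]
        constructor <;> linarith
      · rw [hb] at e1 e2 ⊢
        simp only [skCoupling_neg, neg_mul, sum_neg_distrib, neg_neg] at e1 e2
        rw [abs_le]
        constructor <;> linarith
    intro a
    refine (opSq_of_quad (skCoupling_symm β g) hquad a).trans ?_
    refine mul_le_mul_of_nonneg_right ?_ (sum_nonneg fun i _ => sq_nonneg _)
    rw [radSq, mul_pow, mul_pow, sq_abs]
    linarith
  have hq := gauss_badArray_wide (abs_nonneg β) hn
  have hq' : gauss (Fin n × Fin n) ((fun g => -g) ⁻¹' B)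
      ≤ ENNReal.ofReal (6 * (n : ℝ) ^ 2 * exp (-(8 * n))) := by
    rw [← Measure.map_apply (by fun_prop) (measurableSet_badArray _ _ _ _ n), gauss_map_neg]
    exact hq
  have h := (measure_mono (μ := gauss (Fin n × Fin n)) hsub).trans
    ((measure_union_le _ _).trans (add_le_add hq hq'))
  rw [← ENNReal.ofReal_add (by positivity) (by positivity)] at h
  rw [measureReal_def]
  refine (ENNReal.toReal_mono ENNReal.ofReal_ne_top h).trans ?_
  rw [ENNReal.toReal_ofReal (by positivity)]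
  have hn1 : (1:ℝ) ≤ n := Nat.one_le_cast.2 hn
  have h12 : 12 * (n:ℝ) ^ 2 ≤ exp (6 * n) := by
    have h3 := quadratic_le_exp_of_nonneg (show (0:ℝ) ≤ 6 * n by positivity)
    have : (0:ℝ) ≤ 6 * n := by positivity
    have e : (6 * (n:ℝ)) ^ 2 / 2 = 18 * (n:ℝ) ^ 2 := by ring
    have := sq_nonneg (n:ℝ)
    linarith
  calc 6 * (n : ℝ) ^ 2 * exp (-(8 * n)) + 6 * (n : ℝ) ^ 2 * exp (-(8 * n))
      = 12 * (n : ℝ) ^ 2 * exp (-(8 * n)) := by ring
    _ ≤ exp (6 * n) * exp (-(8 * n)) := mul_le_mul_of_nonneg_right h12 (exp_pos _).le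
    _ = exp (-(2 * n)) := by rw [← exp_add]; ring_nf

end Vale.Agent.P150.Beta1.Words
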