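import Mathlib
import Vale.Agent.P150.Beta1.Words.Event

/-!
# Algebra of words: norms, perturbation, gauge, linearity and derivative
-/

namespace Vale.Agent.P150.Beta1.Words

open Finset Real Matrix

variable {ι : Type*} [Fintype ι] [DecidableEq ι]

/-- A word, built from its first letter. -/
def word (J : ι → ι → ℝ) : (ι → ℝ) → List (ι → ℝ) → Matrix ι ι ℝ
  | d, [] => Matrix.diagonal d
  | d, e :: r => Matrix.diagonal d * (Matrix.of J * word J e r)

/-- Entries in the unit box. -/
def Box (v : ι → ℝ) : Prop := ∀ i, |v i| ≤ 1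

lemma word_cons_apply (J : ι → ι → ℝ) (d e : ι → ℝ) (r : List (ι → ℝ)) (i k : ι) :
    word J d (e :: r) i k = d i * ∑ a, J i a * word J e r a k := by
  simp [word, Matrix.mul_apply, Matrix.diagonal_apply]

lemma wordMat_eq (J : ι → ι → ℝ) (d : ι → ℝ) (l : List (ι → ℝ)) :
    wordMat J d l = word J d l := by
  suffices h : ∀ (l : List (ι → ℝ)) (M : Matrix ι ι ℝ) (d : ι → ℝ),
      l.foldl (fun M e => M * (Matrix.of J * Matrix.diagonal e)) (M * Matrix.diagonal d)
        = M * word J d l by
    simpa [wordMat] using h l 1 d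
  intro l
  induction l with
  | nil => intro M d; rfl
  | cons e r ih =>
    intro M d
    rw [List.foldl_cons, show M * Matrix.diagonal d * (Matrix.of J * Matrix.diagonal e)
      = M * Matrix.diagonal d * Matrix.of J * Matrix.diagonal e by simp only [Matrix.mul_assoc],
      ih, word]
    simp only [Matrix.mul_assoc]

variable {J J' : ι → ι → ℝ} {S : ℝ}

omit [DecidableEq ι] in
lemma sum_sq_box_mul_le {d : ι → ℝ} (hd : Box d) (x : ι → ℝ) :
    ∑ i, (d i * x i) ^ 2 ≤ ∑ i, x i ^ 2 := by
  refine sum_le_sum fun i _ => ?_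
  rw [mul_pow]
  exact mul_le_of_le_one_left (sq_nonneg _) ((sq_le_one_iff_abs_le_one _).2 (hd i))

lemma word_mulVec_le (hJ : OpSq J S) (hS : 0 ≤ S) : ∀ (l : List (ι → ℝ)) (d : ι → ℝ),
    Box d → (∀ e ∈ l, Box e) → ∀ b : ι → ℝ,
      ∑ i, (∑ k, word J d l i k * b k) ^ 2 ≤ S ^ l.length * ∑ k, b k ^ 2
  | [], d, hd, _, b => by
    simpa [word, Matrix.diagonal_apply] using sum_sq_box_mul_le hd b
  | e :: r, d, hd, hl, b => by
    have h1 : ∀ i, ∑ k, word J d (e :: r) i k * b k
        = d i * act J (fun a => ∑ k, word J e r a k * b k) i := by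
      intro i
      simp only [word_cons_apply, act, mul_sum, sum_mul]
      rw [sum_comm]
      exact sum_congr rfl fun a _ => sum_congr rfl fun k _ => by ring
    simp only [h1]
    refine (sum_sq_box_mul_le hd _).trans ((hJ _).trans ?_)
    refine (mul_le_mul_of_nonneg_left (word_mulVec_le hJ hS r e (hl e (List.mem_cons_self ..))
      (fun x hx => hl x (List.mem_cons_of_mem _ hx)) b) hS).trans_eq ?_
    rw [List.length_cons, pow_succ]
    ring

lemma word_vecMul_le (hJ : OpSq J S) (hs : ∀ i j, J i j = J j i) (hS : 0 ≤ S) :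
    ∀ (l : List (ι → ℝ)) (d : ι → ℝ), Box d → (∀ e ∈ l, Box e) → ∀ b : ι → ℝ,
      ∑ k, (∑ i, b i * word J d l i k) ^ 2 ≤ S ^ l.length * ∑ i, b i ^ 2
  | [], d, hd, _, b => by
    simpa [word, Matrix.diagonal_apply, mul_comm] using sum_sq_box_mul_le hd b
  | e :: r, d, hd, hl, b => by
    have h1 : ∀ k, ∑ i, b i * word J d (e :: r) i k
        = ∑ a, act J (fun i => d i * b i) a * word J e r a k := by
      intro k
      simp only [word_cons_apply, act, mul_sum, sum_mul]
      rw [sum_comm]
      exact sum_congr rfl fun a _ => sum_congr rfl fun i _ => by rw [hs a i]; ring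
    simp only [h1]
    refine (word_vecMul_le hJ hs hS r e (hl e (List.mem_cons_self ..))
      (fun x hx => hl x (List.mem_cons_of_mem _ hx)) _).trans ?_
    refine (mul_le_mul_of_nonneg_left ((hJ _).trans
      (mul_le_mul_of_nonneg_left (sum_sq_box_mul_le hd b) hS)) (pow_nonneg hS _)).trans_eq ?_
    rw [List.length_cons, pow_succ]
    ring

lemma word_row_le (hJ : OpSq J S) (hs : ∀ i j, J i j = J j i) (hS : 0 ≤ S) {l : List (ι → ℝ)}
    {d : ι → ℝ} (hd : Box d) (hl : ∀ e ∈ l, Box e) (i : ι) :
    ∑ k, word J d l i k ^ 2 ≤ S ^ l.length := by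
  simpa [Pi.single_apply] using word_vecMul_le hJ hs hS l d hd hl (Pi.single i 1)

lemma word_col_le (hJ : OpSq J S) (hS : 0 ≤ S) {l : List (ι → ℝ)}
    {d : ι → ℝ} (hd : Box d) (hl : ∀ e ∈ l, Box e) (k : ι) :
    ∑ i, word J d l i k ^ 2 ≤ S ^ l.length := by
  simpa [Pi.single_apply] using word_mulVec_le hJ hS l d hd hl (Pi.single k 1)

lemma word_entry_le (hJ : OpSq J S) (hS : 1 ≤ S) {l : List (ι → ℝ)}
    {d : ι → ℝ} (hd : Box d) (hl : ∀ e ∈ l, Box e) (i k : ι) :
    |word J d l i k| ≤ S ^ l.length := by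
  have h1 := (single_le_sum (f := fun a => word J d l a k ^ 2) (fun a _ => sq_nonneg _)
    (mem_univ i)).trans (word_col_le hJ (zero_le_one.trans hS) hd hl k)
  have h2 : 1 ≤ S ^ l.length := one_le_pow₀ hS
  refine abs_le_of_sq_le_sq (h1.trans ?_) (zero_le_one.trans h2)
  exact le_self_pow₀ h2 two_ne_zero

/-- Perturbation of the couplings, in Frobenius norm. -/
lemma word_sub_frob (hJ : OpSq J S) (hJ' : OpSq J' S) (hs : ∀ i j, J i j = J j i)
    (hS : 1 ≤ S) : ∀ (l : List (ι → ℝ)) (d : ι → ℝ), Box d → (∀ e ∈ l, Box e) →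
      ∑ i, ∑ k, (word J d l i k - word J' d l i k) ^ 2
        ≤ (4 * S) ^ l.length * ∑ i, ∑ k, (J i k - J' i k) ^ 2
  | [], d, _, _ => by
    simp [word]
    exact sum_nonneg fun i _ => sum_nonneg fun k _ => sq_nonneg _
  | e :: r, d, hd, hl => by
    have hS0 : 0 ≤ S := zero_le_one.trans hS
    have he := hl e (List.mem_cons_self ..)
    have hr : ∀ x ∈ r, Box x := fun x hx => hl x (List.mem_cons_of_mem _ hx)
    set D := ∑ i, ∑ k, (J i k - J' i k) ^ 2
    have hD : 0 ≤ D := sum_nonneg fun i _ => sum_nonneg fun k _ => sq_nonneg _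
    set X := word J e r
    set Y := word J' e r
    have h1 : ∀ i k, (word J d (e :: r) i k - word J' d (e :: r) i k) ^ 2
        ≤ 2 * (∑ a, (J i a - J' i a) * X a k) ^ 2 + 2 * (∑ a, J' i a * (X a k - Y a k)) ^ 2 := by
      intro i k
      have e1 : word J d (e :: r) i k - word J' d (e :: r) i k
          = d i * ((∑ a, (J i a - J' i a) * X a k) + ∑ a, J' i a * (X a k - Y a k)) := by
        rw [word_cons_apply, word_cons_apply, ← sum_add_distrib, ← mul_sub, ← sum_sub_distrib]
        congr 1
        exact sum_congr rfl fun a _ => by simp only [X, Y]; ring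
      rw [e1, mul_pow]
      refine (mul_le_of_le_one_left (sq_nonneg _)
        ((sq_le_one_iff_abs_le_one _).2 (hd i))).trans ?_
      linarith [add_sq_le (a := ∑ a, (J i a - J' i a) * X a k)
        (b := ∑ a, J' i a * (X a k - Y a k))]
    have h2 : ∑ i, ∑ k, (∑ a, (J i a - J' i a) * X a k) ^ 2 ≤ S ^ r.length * D := by
      rw [mul_sum]
      exact sum_le_sum fun i _ => word_vecMul_le hJ hs hS0 r e he hr fun a => J i a - J' i a
    have h3 : ∑ i, ∑ k, (∑ a, J' i a * (X a k - Y a k)) ^ 2
        ≤ S * ((4 * S) ^ r.length * D) := by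
      rw [sum_comm]
      refine le_trans (sum_le_sum fun k _ => hJ' fun a => X a k - Y a k) ?_
      rw [← mul_sum, sum_comm]
      exact mul_le_mul_of_nonneg_left (word_sub_frob hJ hJ' hs hS r e he hr) hS0
    refine (sum_le_sum fun i _ => sum_le_sum fun k _ => h1 i k).trans ?_
    simp only [sum_add_distrib, ← mul_sum]
    have h4 : S ^ r.length * D ≤ S * ((4 * S) ^ r.length * D) := by
      refine le_trans ?_ (le_mul_of_one_le_left (by positivity) hS)
      refine mul_le_mul_of_nonneg_right (pow_le_pow_left₀ hS0 ?_ _) hD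
      linarith
    rw [List.length_cons, pow_succ]
    linarith

/-- Sign changes of the basis. -/
lemma word_gauge (ε : ι → ℝ) (hε : ∀ i, ε i * ε i = 1) :
    ∀ (l : List (ι → ℝ)) (d : ι → ℝ) (i k : ι),
      word (fun a b => ε a * ε b * J a b) d l i k = ε i * ε k * word J d l i k
  | [], d, i, k => by
    rcases eq_or_ne i k with rfl | h
    · simp [word, hε]
    · simp [word, h]
  | e :: r, d, i, k => by
    simp only [word_cons_apply, word_gauge ε hε r e, mul_sum]
    refine sum_congr rfl fun a _ => ?_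
    linear_combination (ε i * ε k * J i a * word J e r a k * d i) * hε a

/-- A word given by all of its letters. -/
def wordL (J : ι → ι → ℝ) : List (ι → ℝ) → Matrix ι ι ℝ
  | [] => 0
  | d :: l => word J d l

/-- A word is linear in each letter. -/
lemma wordL_linear (J : ι → ι → ℝ) {v v₁ v₂ : ι → ℝ} {a b : ℝ}
    (h : ∀ i, v i = a * v₁ i + b * v₂ i) (post : List (ι → ℝ)) :
    ∀ (pre : List (ι → ℝ)) (i k : ι), wordL J (pre ++ v :: post) i k
      = a * wordL J (pre ++ v₁ :: post) i k + b * wordL J (pre ++ v₂ :: post) i k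
  | [], i, k => by
    rcases post with _ | ⟨e, r⟩
    · rcases eq_or_ne i k with rfl | hik
      · simp [wordL, word, h]
      · simp [wordL, word, hik]
    · simp only [List.nil_append, wordL, word_cons_apply, h]
      ring
  | d :: pre, i, k => by
    have hc : ∀ u : ι → ℝ, wordL J (d :: pre ++ u :: post) i k
        = d i * ∑ c, J i c * wordL J (pre ++ u :: post) c k := by
      intro u
      rcases pre with _ | ⟨e, r⟩
      · exact word_cons_apply J d u post i k
      · exact word_cons_apply J d e (r ++ u :: post) i k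
    simp only [hc, wordL_linear J h post pre, mul_sum, ← sum_add_distrib]
    exact sum_congr rfl fun c _ => by ring

/-- The derivative of a word along a curve of couplings. -/
lemma hasDerivAt_word {J : ℝ → ι → ι → ℝ} {H : Matrix ι ι ℝ} {s : ℝ}
    (hJ : ∀ a b, HasDerivAt (fun t => J t a b) (H a b) s) :
    ∀ (l : List (ι → ℝ)) (d : ι → ℝ) (i k : ι),
      HasDerivAt (fun t => word (J t) d l i k)
        ((∑ j ∈ range l.length,
          word (J s) d (l.take j) * (H * word (J s) (l.getD j 0) (l.drop (j + 1)))) i k) s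
  | [], d, i, k => by simpa [word] using hasDerivAt_const s (Matrix.diagonal d i k)
  | e :: r, d, i, k => by
    have h1 := (HasDerivAt.fun_sum (u := univ) fun a _ =>
      (hJ i a).mul (hasDerivAt_word hJ r e a k)).const_mul (d i)
    simp only [Pi.mul_apply] at h1
    simp only [word_cons_apply]
    refine h1.congr_deriv ?_
    rw [List.length_cons, sum_range_succ']
    simp only [List.take_succ_cons, List.getD_cons_succ, List.drop_succ_cons, List.take_zero,
      List.getD_cons_zero, zero_add, List.drop_zero, word, Matrix.add_apply, Matrix.sum_apply,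
      Matrix.mul_assoc, Matrix.diagonal_mul]
    rw [sum_add_distrib, mul_add, add_comm]
    congr 1
    simp only [Matrix.mul_apply, Matrix.of_apply, mul_sum]
    rw [sum_comm]

end Vale.Agent.P150.Beta1.Words
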