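import Mathlib
import Vale.Agent.P150.Beta1.Conc
import Vale.Agent.P150.Beta1.Words.Event

/-!
# Moments and tails of functions that are Lipschitz on the operator norm event
-/

namespace Vale.Agent.P150.Beta1.Words

open MeasureTheory ProbabilityTheory Finset Real
open Vale.Agent.P245 (law)
open Vale.Agent.P245.General (nsq gd gd_one_eq gauss_mgf gauss_lip_integrable)

variable {ι : Type*} [Fintype ι]

/-- Euclidean distance. -/
noncomputable def dist2 (x y : ι → ℝ) : ℝ := √(∑ i, (x i - y i) ^ 2)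

lemma dist2_nonneg (x y : ι → ℝ) : 0 ≤ dist2 x y := sqrt_nonneg _

lemma dist2_comm (x y : ι → ℝ) : dist2 x y = dist2 y x := by
  rw [dist2, dist2]
  congr 1
  exact sum_congr rfl fun i _ => by ring

lemma l2_add (a b : ι → ℝ) :
    √(∑ i, (a i + b i) ^ 2) ≤ √(∑ i, a i ^ 2) + √(∑ i, b i ^ 2) := by
  rw [sqrt_le_left (by positivity), add_sq, sq_sqrt (by positivity), sq_sqrt (by positivity)]
  have h := sum_mul_le_sqrt_mul_sqrt univ a b
  simp only [add_sq, sum_add_distrib, mul_assoc, ← mul_sum]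
  linarith

lemma dist2_triangle (x y z : ι → ℝ) : dist2 x z ≤ dist2 x y + dist2 y z := by
  have h := l2_add (fun i => x i - y i) (fun i => y i - z i)
  simpa [dist2] using h

lemma sqrt_sq_sub_le (a b : ι → ℝ) :
    |√(∑ i, a i ^ 2) - √(∑ i, b i ^ 2)| ≤ dist2 a b := by
  have h1 := l2_add (fun i => a i - b i) b
  have h2 := l2_add (fun i => b i - a i) a
  simp only [sub_add_cancel] at h1 h2
  have e : √(∑ i, (b i - a i) ^ 2) = dist2 a b := dist2_comm b a
  rw [e] at h2
  rw [show √(∑ i, (a i - b i) ^ 2) = dist2 a b from rfl] at h1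
  rw [abs_le]
  constructor <;> linarith

/-- Lipschitz in the Euclidean distance on a set. -/
def LipOn (f : (ι → ℝ) → ℝ) (L : ℝ) (G : Set (ι → ℝ)) : Prop :=
  ∀ x ∈ G, ∀ y ∈ G, |f x - f y| ≤ L * dist2 x y

lemma exists_extension {f : (ι → ℝ) → ℝ} {L : ℝ} (hL : 0 ≤ L) {G : Set (ι → ℝ)} {x₀ : ι → ℝ}
    (h0 : x₀ ∈ G) (hf : LipOn f L G) :
    ∃ F : (ι → ℝ) → ℝ, Continuous F ∧ (∀ x y, |F x - F y| ≤ L * dist2 x y) ∧
      ∀ x ∈ G, F x = f x := by
  have : Nonempty G := ⟨⟨x₀, h0⟩⟩
  set F : (ι → ℝ) → ℝ := fun x => ⨅ h : G, f h.1 + L * dist2 x h.1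
  have hb : ∀ x, BddBelow (Set.range fun h : G => f h.1 + L * dist2 x h.1) := by
    intro x
    refine ⟨f x₀ - L * dist2 x x₀, ?_⟩
    rintro _ ⟨h, rfl⟩
    have h1 := (abs_le.1 (hf _ h0 _ h.2)).2
    have h2 := mul_le_mul_of_nonneg_left (dist2_triangle x₀ x h.1) hL
    rw [dist2_comm x₀ x] at h2
    dsimp only
    linarith
  have hle : ∀ x y, F x ≤ F y + L * dist2 x y := by
    intro x y
    rw [← sub_le_iff_le_add]
    refine le_ciInf fun h => ?_
    rw [sub_le_iff_le_add]
    refine (ciInf_le (hb x) h).trans ?_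
    have := mul_le_mul_of_nonneg_left (dist2_triangle x y h.1) hL
    linarith
  have hlip : ∀ x y, |F x - F y| ≤ L * dist2 x y := by
    intro x y
    have h1 := hle x y
    have h2 := hle y x
    rw [dist2_comm y x] at h2
    rw [abs_le]
    constructor <;> linarith
  refine ⟨F, ?_, hlip, fun x hx => le_antisymm ?_ (le_ciInf fun h => ?_)⟩
  · refine continuous_iff_continuousAt.2 fun x => ?_
    rw [ContinuousAt, tendsto_iff_dist_tendsto_zero]
    refine squeeze_zero (fun y => dist_nonneg) (fun y => ?_)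
      (g := fun y => L * dist2 y x) ?_
    · rw [Real.dist_eq]; exact hlip y x
    · have hc : Continuous fun y => L * dist2 y x := by unfold dist2; fun_prop
      simpa [dist2] using hc.tendsto x
  · simpa [F, dist2] using ciInf_le (hb x) ⟨x, hx⟩
  · have := (abs_le.1 (hf x hx _ h.2)).2
    linarith

/-- The exponential moment of a Lipschitz function. -/
lemma lipschitz_mgf {f : (ι → ℝ) → ℝ} (hc : Continuous f) {L : ℝ} (hL : 0 ≤ L)
    (hf : ∀ x y, |f x - f y| ≤ L * dist2 x y) (lam : ℝ) :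
    Integrable f (gauss ι) ∧ Integrable (fun x => exp (lam * f x)) (gauss ι) ∧
      ∫ x, exp (lam * f x) ∂gauss ι
        ≤ exp (lam * (∫ x, f x ∂gauss ι) + lam ^ 2 * L ^ 2) := by
  set e := Fintype.equivFin ι
  set T := MeasurableEquiv.piCongrLeft (fun _ : ι => ℝ) e.symm
  have hT : MeasurePreserving T (gauss (Fin (Fintype.card ι))) (gauss ι) :=
    measurePreserving_piCongrLeft (fun _ : ι => gaussianReal 0 1) e.symm
  have hTap : ∀ (x : Fin (Fintype.card ι) → ℝ) (i : ι), T x i = x (e i) := by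
    intro x i
    simp [T, MeasurableEquiv.coe_piCongrLeft, Equiv.piCongrLeft_apply]
  have hcT : Continuous fun x => f (T x) := by
    refine hc.comp (continuous_pi fun i => ?_)
    simp only [hTap]
    exact continuous_apply _
  have hfT : ∀ x y, |f (T x) - f (T y)| ≤ L * √(nsq (x - y)) := by
    intro x y
    refine (hf _ _).trans (le_of_eq ?_)
    rw [dist2]
    congr 2
    simp only [nsq, Pi.sub_apply, hTap]
    exact e.sum_comp fun k => (x k - y k) ^ 2
  have h := gauss_mgf hcT hL hfT lam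
  have hi := gauss_lip_integrable hcT hfT lam
  have hlaw : law (gd (Fintype.card ι) 1) = gauss (Fin (Fintype.card ι)) := gd_one_eq
  rw [hlaw, hT.integral_comp T.measurableEmbedding f,
    hT.integral_comp T.measurableEmbedding (fun x => exp (lam * f x))] at h
  rw [hlaw] at hi
  exact ⟨(hT.integrable_comp_emb T.measurableEmbedding).1 hi.1,
    (hT.integrable_comp_emb T.measurableEmbedding).1 hi.2, h⟩

/-- The fourth central moment of a Lipschitz function. -/
lemma lipschitz_fourth {f : (ι → ℝ) → ℝ} (hc : Continuous f) {L : ℝ} (hL : 0 < L)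
    (hf : ∀ x y, |f x - f y| ≤ L * dist2 x y) :
    Integrable (fun x => (f x - ∫ y, f y ∂gauss ι) ^ 4) (gauss ι) ∧
      ∫ x, (f x - ∫ y, f y ∂gauss ι) ^ 4 ∂gauss ι ≤ 144 * L ^ 4 := by
  set c := ∫ y, f y ∂gauss ι
  obtain ⟨-, h1, b1⟩ := lipschitz_mgf hc hL.le hf (1 / L)
  obtain ⟨-, h2, b2⟩ := lipschitz_mgf hc hL.le hf (-(1 / L))
  have hL2 : (1 / L) ^ 2 * L ^ 2 = 1 := by field_simp
  rw [hL2] at b1
  rw [neg_sq, hL2] at b2
  set u : (ι → ℝ) → ℝ := fun x =>
    24 * L ^ 4 * (exp (-(c / L)) * exp (1 / L * f x) + exp (c / L) * exp (-(1 / L) * f x))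
  have hu : Integrable u (gauss ι) :=
    ((h1.const_mul _).add (h2.const_mul _)).const_mul _
  have hle : ∀ x, (f x - c) ^ 4 ≤ u x := by
    intro x
    set t := (f x - c) / L
    have h4 := pow_div_factorial_le_exp |t| (abs_nonneg t) 4
    rw [show ((4 : ℕ).factorial : ℝ) = 24 by norm_num [Nat.factorial],
      show |t| ^ 4 = t ^ 4 from Even.pow_abs ⟨2, rfl⟩ t] at h4
    have h5 : exp |t| ≤ exp t + exp (-t) := by
      rcases abs_choice t with h | h <;> rw [h] <;> linarith [exp_pos t, exp_pos (-t)]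
    have e : (f x - c) ^ 4 = 24 * L ^ 4 * (t ^ 4 / 24) := by
      simp only [t]
      field_simp
    rw [e]
    refine mul_le_mul_of_nonneg_left ((h4.trans h5).trans_eq ?_) (by positivity)
    simp only [t]
    rw [← exp_add, ← exp_add]
    ring_nf
  have hi : Integrable (fun x => (f x - c) ^ 4) (gauss ι) :=
    hu.mono' ((hc.sub continuous_const).pow 4).aestronglyMeasurable
      (ae_of_all _ fun x => by rw [norm_eq_abs, abs_of_nonneg (by positivity)]; exact hle x)
  refine ⟨hi, (integral_mono hi hu hle).trans ?_⟩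
  simp only [u]
  rw [integral_const_mul, integral_add (h1.const_mul _) (h2.const_mul _), integral_const_mul,
    integral_const_mul]
  have e1 : exp (-(c / L)) * exp (1 / L * c + 1) = exp 1 := by rw [← exp_add]; ring_nf
  have e2 : exp (c / L) * exp (-(1 / L) * c + 1) = exp 1 := by rw [← exp_add]; ring_nf
  have u1 := (mul_le_mul_of_nonneg_left b1 (exp_pos (-(c / L))).le).trans_eq e1
  have u2 := (mul_le_mul_of_nonneg_left b2 (exp_pos (c / L)).le).trans_eq e2
  calc 24 * L ^ 4 * _ ≤ 24 * L ^ 4 * (3 + 3) := by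
        refine mul_le_mul_of_nonneg_left (add_le_add (u1.trans ?_) (u2.trans ?_)) (by positivity)
          <;> exact exp_one_lt_three.le
    _ = _ := by ring

/-- Moments of the crude size. -/
lemma crude_moment (β : ℝ) (k : ℕ) : ∃ C, 0 ≤ C ∧ ∀ n : ℕ,
    ∫ g, crude β g ^ k ∂gauss (Fin n × Fin n) ≤ C * ((n : ℝ) ^ 2 + 1) ^ (k + 1) := by
  set c := ∫ x, (x ^ 2) ^ (k + 1) ∂gaussianReal 0 1
  have hc : 0 ≤ c := integral_nonneg fun x => by positivity
  refine ⟨(1 + 2 * β ^ 2) ^ k * (1 + c), by positivity, fun n => ?_⟩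
  set N : ℝ := (n : ℝ) ^ 2
  have hi : ∀ p : Fin n × Fin n,
      Integrable (fun g : Fin n × Fin n → ℝ => (g p ^ 2) ^ (k + 1)) (gauss (Fin n × Fin n)) :=
    fun p => PolyGrowth.integrable ⟨1, 2 * (k + 1), fun g => by
      simp only [← pow_mul, abs_pow, one_mul]
      refine pow_le_pow_left₀ (abs_nonneg _) ?_ _
      have := single_le_sum (f := fun q => |g q|) (fun q _ => abs_nonneg _) (mem_univ p)
      linarith⟩ ((continuous_apply p).pow 2 |>.pow _)
  have hv : ∀ p : Fin n × Fin n,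
      ∫ g, (g p ^ 2) ^ (k + 1) ∂gauss (Fin n × Fin n) = c := fun p =>
    integral_comp_eval (μ := fun _ : Fin n × Fin n => gaussianReal 0 1)
      (f := fun x : ℝ => (x ^ 2) ^ (k + 1)) (Continuous.aestronglyMeasurable (by fun_prop))
  have hle : ∀ g : Fin n × Fin n → ℝ, crude β g ^ k
      ≤ (1 + 2 * β ^ 2) ^ k * ((N + 1) ^ k * (1 + ∑ p, (g p ^ 2) ^ (k + 1))) := by
    intro g
    rw [crude, mul_pow]
    refine mul_le_mul_of_nonneg_left ?_ (by positivity)
    have h1 : (1 + ∑ p, g p ^ 2) ^ k ≤ (1 + ∑ p, g p ^ 2) ^ (k + 1) :=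
      pow_le_pow_right₀ (le_add_of_nonneg_right (sum_nonneg fun p _ => sq_nonneg _)) (by omega)
    have h2 := pow_sum_le_card_mul_sum_pow (s := (univ : Finset (Option (Fin n × Fin n))))
      (f := fun o => o.elim 1 fun p => g p ^ 2)
      (fun o _ => by cases o <;> simp [sq_nonneg]) k
    simp only [Fintype.sum_option, Option.elim_none, Option.elim_some, one_pow, card_univ,
      Fintype.card_option, Fintype.card_prod, Fintype.card_fin] at h2
    refine h1.trans (h2.trans_eq ?_)
    simp only [N]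
    push_cast
    ring
  have hsum : Integrable (fun g : Fin n × Fin n → ℝ => 1 + ∑ p, (g p ^ 2) ^ (k + 1))
      (gauss (Fin n × Fin n)) := (integrable_const 1).add (integrable_finsetSum _ fun p _ => hi p)
  refine (integral_mono_of_nonneg (ae_of_all _ fun g => pow_nonneg
    (zero_le_one.trans (one_le_crude β g)) k) ((hsum.const_mul _).const_mul _)
    (ae_of_all _ hle)).trans ?_
  rw [integral_const_mul, integral_const_mul, integral_add (integrable_const 1)
    (integrable_finsetSum _ fun p _ => hi p), integral_finsetSum _ fun p _ => hi p]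
  simp only [hv, sum_const, card_univ, Fintype.card_prod, Fintype.card_fin, nsmul_eq_mul,
    integral_const, probReal_univ, one_smul]
  push_cast
  rw [mul_assoc ((1 + 2 * β ^ 2) ^ k), show (n:ℝ) * n = N by simp [N, sq]]
  refine mul_le_mul_of_nonneg_left ?_ (by positivity)
  have hN : 0 ≤ N := sq_nonneg _
  calc (N + 1) ^ k * (1 + N * c) ≤ (N + 1) ^ k * ((1 + c) * (N + 1)) := by
        refine mul_le_mul_of_nonneg_left ?_ (by positivity)
        have : (1 + c) * (N + 1) = 1 + N * c + N + c := by ring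
        linarith
    _ = _ := by ring

/-- Polynomial factors lose against the exponential. -/
lemma poly_mul_exp_le (j : ℕ) : ∃ C, 0 ≤ C ∧ ∀ n : ℕ, 0 < n →
    ((n : ℝ) ^ 2 + 1) ^ j * exp (-(n : ℝ)) ≤ C / (n : ℝ) ^ 2 := by
  refine ⟨2 ^ j * (2 * (j + 1)).factorial, by positivity, fun n hn => ?_⟩
  have hn1 : (1:ℝ) ≤ n := Nat.one_le_cast.2 hn
  rw [le_div_iff₀ (by positivity)]
  have h1 := pow_div_factorial_le_exp (n:ℝ) (by positivity) (2 * (j + 1))
  rw [div_le_iff₀ (by positivity)] at h1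
  have h2 : ((n : ℝ) ^ 2 + 1) ^ j ≤ 2 ^ j * ((n:ℝ) ^ 2) ^ j := by
    rw [← mul_pow]
    gcongr
    have := one_le_pow₀ hn1 (n := 2)
    linarith
  calc ((n : ℝ) ^ 2 + 1) ^ j * exp (-(n : ℝ)) * (n : ℝ) ^ 2
      ≤ 2 ^ j * ((n:ℝ) ^ 2) ^ j * exp (-(n : ℝ)) * (n : ℝ) ^ 2 := by gcongr
    _ = 2 ^ j * (n:ℝ) ^ (2 * (j + 1)) * exp (-(n : ℝ)) := by ring
    _ ≤ 2 ^ j * (exp n * (2 * (j + 1)).factorial) * exp (-(n : ℝ)) := by gcongr
    _ = 2 ^ j * (2 * (j + 1)).factorial * (exp n * exp (-(n : ℝ))) := by ring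
    _ = _ := by rw [← exp_add, add_neg_cancel, exp_zero, mul_one]

/-- Crude quantities off the event are negligible. -/
lemma rare (β : ℝ) (k j : ℕ) : ∃ C, 0 ≤ C ∧ ∀ n : ℕ, 0 < n →
    ∫ g, (Ev β n)ᶜ.indicator (fun g => crude β g ^ k * ((n : ℝ) ^ 2 + 1) ^ j) g
      ∂gauss (Fin n × Fin n) ≤ C / (n : ℝ) ^ 2 := by
  obtain ⟨M, hM0, hM⟩ := crude_moment β (2 * k)
  obtain ⟨C, hC0, hC⟩ := poly_mul_exp_le (2 * k + 1 + j)
  refine ⟨(1 + M) * C, by positivity, fun n hn => ?_⟩
  set μ := gauss (Fin n × Fin n)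
  set w : ℝ := exp n
  set N : ℝ := (n : ℝ) ^ 2 + 1
  have hN : 1 ≤ N := le_add_of_nonneg_left (sq_nonneg _)
  have hE := measurableSet_ev β n
  have hint : Integrable (fun g => crude β g ^ (2 * k)) μ :=
    integrable_of_crude (β := β) (A := 1) (k := 2 * k)
      (by unfold crude; fun_prop) fun g => by
        rw [abs_of_nonneg (pow_nonneg (zero_le_one.trans (one_le_crude β g)) _), one_mul]
  have hle : ∀ g, (Ev β n)ᶜ.indicator (fun g => crude β g ^ k * N ^ j) g
      ≤ N ^ j * (w * (Ev β n)ᶜ.indicator (fun _ => (1:ℝ)) g + w⁻¹ * crude β g ^ (2 * k)) := by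
    intro g
    have hc := zero_le_one.trans (one_le_crude β g)
    by_cases hg : g ∈ (Ev β n)ᶜ
    · rw [Set.indicator_of_mem hg, Set.indicator_of_mem hg, mul_comm (crude β g ^ k)]
      refine mul_le_mul_of_nonneg_left ?_ (by positivity)
      have hw : 0 < w := exp_pos _
      rw [pow_mul' , mul_one]
      rw [← sub_nonneg]
      have e : w + w⁻¹ * (crude β g ^ k) ^ 2 - crude β g ^ k
          = w⁻¹ * ((crude β g ^ k - w) ^ 2 + w * crude β g ^ k) := by field_simp; ring
      rw [e]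
      positivity
    · rw [Set.indicator_of_notMem hg, Set.indicator_of_notMem hg]
      positivity
  have i1 : Integrable ((Ev β n)ᶜ.indicator fun _ => (1:ℝ)) μ :=
    (integrable_const 1).indicator hE.compl
  refine (integral_mono_of_nonneg (ae_of_all _ fun g => Set.indicator_nonneg (fun g _ => ?_) g)
    (((i1.const_mul w).add (hint.const_mul w⁻¹)).const_mul (N ^ j)) (ae_of_all _ hle)).trans ?_
  · have hc := zero_le_one.trans (one_le_crude β g)
    positivity
  simp only [integral_const_mul, Pi.add_apply]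
  rw [integral_add (i1.const_mul w) (hint.const_mul w⁻¹), integral_const_mul, integral_const_mul]
  rw [integral_indicator_const (1:ℝ) hE.compl, smul_eq_mul, mul_one]
  have h1 : w * μ.real (Ev β n)ᶜ ≤ exp (-(n:ℝ)) := by
    refine (mul_le_mul_of_nonneg_left (gauss_ev_compl β hn) (exp_pos _).le).trans_eq ?_
    rw [← exp_add]; ring_nf
  have h2 : w⁻¹ * ∫ g, crude β g ^ (2 * k) ∂μ ≤ exp (-(n:ℝ)) * (M * N ^ (2 * k + 1)) := by
    rw [exp_neg]
    exact mul_le_mul_of_nonneg_left (hM n) (by positivity)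
  calc N ^ j * _ ≤ N ^ j * (exp (-(n:ℝ)) + exp (-(n:ℝ)) * (M * N ^ (2 * k + 1))) :=
        mul_le_mul_of_nonneg_left (add_le_add h1 h2) (by positivity)
    _ ≤ N ^ j * (exp (-(n:ℝ)) * ((1 + M) * N ^ (2 * k + 1))) := by
        refine mul_le_mul_of_nonneg_left ?_ (by positivity)
        have h3 : 1 ≤ N ^ (2 * k + 1) := one_le_pow₀ hN
        have := mul_le_mul_of_nonneg_left h3 (exp_pos (-(n:ℝ))).le
        linarith
    _ = (1 + M) * (N ^ (2 * k + 1 + j) * exp (-(n:ℝ))) := by ring
    _ ≤ (1 + M) * (C / (n : ℝ) ^ 2) := mul_le_mul_of_nonneg_left (hC n hn) (by positivity)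
    _ = _ := by ring

/-- Fourth central moment of a polynomial that is Lipschitz on the event. -/
lemma fourth_moment (β A K : ℝ) (k : ℕ) (hK : 0 < K) : ∃ C, 0 ≤ C ∧ ∀ n : ℕ, 0 < n →
    ∀ f : (Fin n × Fin n → ℝ) → ℝ, Continuous f → (∀ g, |f g| ≤ A * crude β g ^ k) →
      LipOn f (K / √n) (Ev β n) →
      ∫ g, (f g - ∫ x, f x ∂gauss (Fin n × Fin n)) ^ 4 ∂gauss (Fin n × Fin n)
        ≤ C / (n : ℝ) ^ 2 := by
  obtain ⟨M, hM0, hM⟩ := crude_moment β 1
  obtain ⟨R, hR0, hR⟩ := rare β (4 * k) 8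
  set A' := |A| + |A| * (1 + 2 * β ^ 2) ^ k + K * M with hA'
  refine ⟨16 * (144 * K ^ 4 + A' ^ 4 * R), by positivity, fun n hn f hf hb hl => ?_⟩
  set μ := gauss (Fin n × Fin n)
  have hs : 0 < √(n:ℝ) := sqrt_pos.2 (Nat.cast_pos.2 hn)
  obtain ⟨F, hFc, hFl, hFe⟩ := exists_extension (div_pos hK hs).le (zero_mem_ev β n) hl
  set c := ∫ x, F x ∂μ
  set N : ℝ := (n : ℝ) ^ 2 + 1
  have hN : 1 ≤ N := le_add_of_nonneg_left (sq_nonneg _)
  obtain ⟨hFi, -, -⟩ := lipschitz_mgf hFc (div_pos hK hs).le hFl 0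
  have hcr : Integrable (fun g => crude β g) μ :=
    integrable_of_crude (β := β) (A := 1) (k := 1) (by unfold crude; fun_prop) fun g => by
      rw [abs_of_nonneg (zero_le_one.trans (one_le_crude β g)), one_mul, pow_one]
  have hf0 : |f 0| ≤ |A| * (1 + 2 * β ^ 2) ^ k := by
    refine (hb 0).trans ?_
    simp only [crude, Pi.zero_apply, zero_pow two_ne_zero, sum_const_zero, add_zero, mul_one]
    exact mul_le_mul_of_nonneg_right (le_abs_self A) (by positivity)
  have hc1 : |c| ≤ |A| * (1 + 2 * β ^ 2) ^ k + K * (M * N ^ 2) := by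
    have hp : ∀ g, |F g| ≤ |A| * (1 + 2 * β ^ 2) ^ k + K * crude β g := by
      intro g
      have h1 := hFl g 0
      rw [hFe 0 (zero_mem_ev β n)] at h1
      have h2 : dist2 g 0 ≤ crude β g := by
        have hq : 0 ≤ ∑ p, g p ^ 2 := sum_nonneg fun p _ => sq_nonneg _
        simp only [dist2, Pi.zero_apply, sub_zero]
        refine le_trans ?_ (le_mul_of_one_le_left (by positivity)
          (le_add_of_nonneg_right (by positivity)))
        rw [sqrt_le_left (by positivity)]
        have := le_self_pow₀ (show (1:ℝ) ≤ 1 + ∑ p, g p ^ 2 by linarith) two_ne_zero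
        linarith
      have h3 : K / √n * dist2 g 0 ≤ K * crude β g := by
        refine mul_le_mul (div_le_self hK.le ?_) h2 (dist2_nonneg _ _) hK.le
        exact one_le_sqrt.2 (Nat.one_le_cast.2 hn)
      have := abs_sub_abs_le_abs_sub (F g) (f 0)
      linarith
    have := (abs_integral_le_integral_abs (μ := μ) (f := F)).trans
      (integral_mono hFi.abs ((integrable_const _).add (hcr.const_mul K)) hp)
    simp only [Pi.add_apply] at this
    rw [integral_add (integrable_const _) (hcr.const_mul K), integral_const, integral_const_mul,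
      probReal_univ, one_smul] at this
    refine this.trans (add_le_add le_rfl (mul_le_mul_of_nonneg_left ?_ hK.le))
    simpa using hM n
  have hfi : Integrable f μ := integrable_of_crude hf hb
  have hbd : ∀ g, |f g - c| ≤ A' * N ^ 2 * crude β g ^ k := by
    intro g
    have h1 : 1 ≤ crude β g ^ k := one_le_pow₀ (one_le_crude β g)
    have hN2 : 1 ≤ N ^ 2 := one_le_pow₀ hN
    have hf' : |f g| ≤ |A| * crude β g ^ k :=
      (hb g).trans (mul_le_mul_of_nonneg_right (le_abs_self A) (by linarith))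
    calc |f g - c| ≤ |f g| + |c| := abs_sub _ _
      _ ≤ |A| * crude β g ^ k + (|A| * (1 + 2 * β ^ 2) ^ k + K * (M * N ^ 2)) :=
          add_le_add hf' hc1
      _ ≤ |A| * N ^ 2 * crude β g ^ k
          + (|A| * (1 + 2 * β ^ 2) ^ k * N ^ 2 + K * M * N ^ 2) * crude β g ^ k := by
          refine add_le_add ?_ ?_
          · exact mul_le_mul_of_nonneg_right (le_mul_of_one_le_right (abs_nonneg A) hN2)
              (by linarith)
          · refine le_trans ?_ (le_mul_of_one_le_right (by positivity) h1)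
            refine add_le_add (le_mul_of_one_le_right (by positivity) hN2) (le_of_eq ?_)
            ring
      _ = _ := by rw [hA']; ring
  obtain ⟨i4, b4⟩ := lipschitz_fourth hFc (div_pos hK hs) hFl
  set r : (Fin n × Fin n → ℝ) → ℝ :=
    (Ev β n)ᶜ.indicator fun g => crude β g ^ (4 * k) * N ^ 8
  have ri : Integrable r μ := by
    refine Integrable.indicator ?_ (measurableSet_ev β n).compl
    refine Integrable.mul_const ?_ _
    exact integrable_of_crude (β := β) (A := 1) (k := 4 * k) (by unfold crude; fun_prop) fun g => by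
      rw [abs_of_nonneg (pow_nonneg (zero_le_one.trans (one_le_crude β g)) _), one_mul]
  have hle : ∀ g, (f g - c) ^ 4 ≤ (F g - c) ^ 4 + A' ^ 4 * r g := by
    intro g
    by_cases hg : g ∈ Ev β n
    · simp only [r, Set.indicator_of_notMem (show g ∉ (Ev β n)ᶜ from fun h => h hg), mul_zero,
        add_zero, hFe g hg, le_refl]
    · simp only [r, Set.indicator_of_mem (show g ∈ (Ev β n)ᶜ from hg)]
      have := pow_le_pow_left₀ (abs_nonneg _) (hbd g) 4
      rw [Even.pow_abs ⟨2, rfl⟩] at this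
      refine this.trans (le_trans (le_of_eq ?_) (le_add_of_nonneg_left (by positivity)))
      rw [mul_pow, mul_pow, ← pow_mul, ← pow_mul, mul_comm k 4]
      ring
  have hi : Integrable (fun g => (f g - c) ^ 4) μ :=
    (i4.add (ri.const_mul _)).mono' ((hf.sub continuous_const).pow 4).aestronglyMeasurable
      (ae_of_all _ fun g => by rw [norm_eq_abs, abs_of_nonneg (by positivity)]; exact hle g)
  have hfc : Integrable (fun g => f g - c) μ := hfi.sub (integrable_const c)
  have hjen : (∫ g, f g - c ∂μ) ^ 4 ≤ ∫ g, (f g - c) ^ 4 ∂μ :=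
    (show ConvexOn ℝ Set.univ fun x : ℝ => x ^ 4 from Even.convexOn_pow ⟨2, rfl⟩).map_integral_le
      (continuous_pow 4).continuousOn isClosed_univ (ae_of_all _ fun _ => Set.mem_univ _) hfc hi
  rw [integral_sub hfi (integrable_const c), integral_const, probReal_univ, one_smul] at hjen
  have htot : ∫ g, (f g - c) ^ 4 ∂μ ≤ (144 * K ^ 4 + A' ^ 4 * R) / (n:ℝ) ^ 2 := by
    refine (integral_mono hi (i4.add (ri.const_mul _)) hle).trans ?_
    simp only [Pi.add_apply]
    rw [integral_add i4 (ri.const_mul _), integral_const_mul, add_div]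
    refine add_le_add (b4.trans (le_of_eq ?_)) ?_
    · rw [div_pow, show √(n:ℝ) ^ 4 = (√(n:ℝ) ^ 2) ^ 2 by ring, sq_sqrt (Nat.cast_nonneg n)]
      ring
    · rw [mul_div_assoc]
      exact mul_le_mul_of_nonneg_left (hR n hn) (by positivity)
  set m := ∫ x, f x ∂μ
  have hpt : ∀ g, (f g - m) ^ 4 ≤ 8 * ((f g - c) ^ 4 + (m - c) ^ 4) := fun g => by
    have h1 := (Even.convexOn_pow (𝕜 := ℝ) (n := 4) ⟨2, rfl⟩).2 (Set.mem_univ (f g - c))
      (Set.mem_univ (-(m - c))) (show (0:ℝ) ≤ 1/2 by norm_num) (show (0:ℝ) ≤ 1/2 by norm_num)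
      (by norm_num)
    simp only [smul_eq_mul] at h1
    rw [← mul_add, mul_pow, show f g - c + -(m - c) = f g - m by ring,
      show (-(m - c)) ^ 4 = (m - c) ^ 4 by ring] at h1
    linarith
  refine (integral_mono_of_nonneg (ae_of_all _ fun g => by positivity)
    ((hi.add (integrable_const _)).const_mul 8) (ae_of_all _ hpt)).trans ?_
  simp only [Pi.add_apply]
  rw [integral_const_mul, integral_add hi (integrable_const _), integral_const, probReal_univ,
    one_smul]
  rw [mul_div_assoc]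
  linarith

omit [Fintype ι] in
/-- Second moments from fourth moments. -/
lemma second_of_fourth {μ : Measure (ι → ℝ)} [IsProbabilityMeasure μ] {h : (ι → ℝ) → ℝ}
    (hm : AEStronglyMeasurable h μ) (h4 : Integrable (fun g => h g ^ 4) μ) {C x : ℝ} (hx : 0 < x)
    (hb : ∫ g, h g ^ 4 ∂μ ≤ C * x ^ 2) :
    Integrable (fun g => h g ^ 2) μ ∧ ∫ g, h g ^ 2 ∂μ ≤ (C + 1) * x := by
  have hle : ∀ g, h g ^ 2 ≤ h g ^ 4 / x + x := fun g => by
    rw [div_add' _ _ _ hx.ne', le_div_iff₀ hx]
    have := two_mul_le_add_sq (h g ^ 2) x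
    have e : (h g ^ 2) ^ 2 = h g ^ 4 := by ring
    have := mul_nonneg (sq_nonneg (h g)) hx.le
    rw [← sq x]
    linarith
  have hi : Integrable (fun g => h g ^ 2) μ :=
    ((h4.div_const x).add (integrable_const x)).mono' (hm.pow 2) (ae_of_all _ fun g => by
      rw [norm_eq_abs]
      exact (abs_of_nonneg (sq_nonneg _)).trans_le (hle g))
  refine ⟨hi, (integral_mono hi ((h4.div_const x).add (integrable_const x)) hle).trans ?_⟩
  simp only [Pi.add_apply]
  rw [integral_add (h4.div_const x) (integrable_const x), integral_div, integral_const,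
    probReal_univ, one_smul, add_mul, one_mul]
  refine add_le_add ?_ le_rfl
  rw [div_le_iff₀ hx]
  linarith

/-- The mean of a polynomial that is bounded on the event. -/
lemma mean_le (β A B : ℝ) (k : ℕ) : ∃ C, 0 ≤ C ∧ ∀ n : ℕ, 0 < n →
    ∀ f : (Fin n × Fin n → ℝ) → ℝ, Continuous f → (∀ g, |f g| ≤ A * crude β g ^ k) →
      (∀ g ∈ Ev β n, |f g| ≤ B) → ∫ g, |f g| ∂gauss (Fin n × Fin n) ≤ C := by
  obtain ⟨R, hR0, hR⟩ := rare β k 0
  refine ⟨|B| + |A| * R, by positivity, fun n hn f hf hb hB => ?_⟩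
  set r : (Fin n × Fin n → ℝ) → ℝ := (Ev β n)ᶜ.indicator fun g => crude β g ^ k * 1
  have ri : Integrable r (gauss (Fin n × Fin n)) := by
    refine Integrable.indicator ?_ (measurableSet_ev β n).compl
    simp only [mul_one]
    exact integrable_of_crude (β := β) (A := 1) (k := k) (by unfold crude; fun_prop) fun g => by
      rw [abs_of_nonneg (pow_nonneg (zero_le_one.trans (one_le_crude β g)) _), one_mul]
  have hle : ∀ g, |f g| ≤ |B| + |A| * r g := fun g => by
    by_cases hg : g ∈ Ev β n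
    · simp only [r, Set.indicator_of_notMem (show g ∉ (Ev β n)ᶜ from fun h => h hg), mul_zero,
        add_zero]
      exact (hB g hg).trans (le_abs_self B)
    · simp only [r, Set.indicator_of_mem (show g ∈ (Ev β n)ᶜ from hg), mul_one]
      refine le_trans ((hb g).trans ?_) (le_add_of_nonneg_left (abs_nonneg B))
      exact mul_le_mul_of_nonneg_right (le_abs_self A)
        (pow_nonneg (zero_le_one.trans (one_le_crude β g)) _)
  refine (integral_mono (integrable_of_crude hf hb).abs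
    ((integrable_const _).add (ri.const_mul _)) hle).trans ?_
  simp only [Pi.add_apply]
  rw [integral_add (integrable_const _) (ri.const_mul _), integral_const, integral_const_mul,
    probReal_univ, one_smul]
  refine add_le_add le_rfl (mul_le_mul_of_nonneg_left ?_ (abs_nonneg A))
  refine ((by simpa [r] using hR n hn : ∫ g, r g ∂gauss (Fin n × Fin n) ≤ R / (n:ℝ) ^ 2)).trans ?_
  exact div_le_self hR0 (one_le_pow₀ (Nat.one_le_cast.2 hn))

/-- Exponential tail, at any prescribed rate, of a function with bounded mean. -/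
lemma tail_on_ev {β K V κ : ℝ} (hK : 0 < K) (hV : 0 < V) (hκ : 0 ≤ κ) {n : ℕ} (hn : 0 < n)
    {f : (Fin n × Fin n → ℝ) → ℝ} (hf0 : ∀ g, 0 ≤ f g)
    (hfi : Integrable f (gauss (Fin n × Fin n)))
    (hm : ∫ g, f g ∂gauss (Fin n × Fin n) ≤ V) (hl : LipOn f (K / √n) (Ev β n)) :
    (gauss (Fin n × Fin n)).real ({g | 4 * V + 2 * K + 2 * K * √κ < f g} ∩ Ev β n)
      ≤ exp (-(κ * n)) := by
  set μ := gauss (Fin n × Fin n)
  have hs : 0 < √(n:ℝ) := sqrt_pos.2 (Nat.cast_pos.2 hn)
  have hn1 : (1:ℝ) ≤ n := Nat.one_le_cast.2 hn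
  set L := K / √n
  have hL : 0 < L := div_pos hK hs
  have hLK : L ≤ K := div_le_self hK.le (one_le_sqrt.2 hn1)
  obtain ⟨F, hFc, hFl, hFe⟩ := exists_extension hL.le (zero_mem_ev β n) hl
  set c := ∫ x, F x ∂μ
  obtain ⟨hFi, -, -⟩ := lipschitz_mgf hFc hL.le hFl 0
  have hc : c ≤ 4 * V + 2 * L := by
    by_contra hcon
    push Not at hcon
    have hsub : (Set.univ : Set (Fin n × Fin n → ℝ))
        ⊆ ({g | 4 * V ≤ f g} ∪ (Ev β n)ᶜ) ∪ {g | (∫ x, -F x ∂μ) + 2 * L ≤ -F g} := by
      intro g _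
      by_cases hg : g ∈ Ev β n
      · rcases le_or_gt (4 * V) (f g) with h | h
        · exact Or.inl (Or.inl h)
        · right
          rw [Set.mem_ofPred_eq, integral_neg, hFe g hg]
          linarith
      · exact Or.inl (Or.inr hg)
    have h := (measureReal_mono (μ := μ) hsub).trans ((measureReal_union_le _ _).trans
      (add_le_add (measureReal_union_le _ _) le_rfl))
    rw [probReal_univ] at h
    have h1 := mul_meas_ge_le_integral_of_nonneg (μ := μ) (ae_of_all _ hf0) hfi (4 * V)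
    have h1' : μ.real {g | 4 * V ≤ f g} ≤ 1 / 4 := by
      by_contra h'
      push Not at h'
      have := mul_lt_mul_of_pos_left h' (show 0 < 4 * V by positivity)
      linarith
    have h2 := gauss_ev_compl β hn
    have h3 := lipschitz_tail (f := fun g => -F g) hFc.neg hL (fun x y => by
      rw [show -F x - -F y = -(F x - F y) by ring, abs_neg]
      exact hFl x y) (show 0 ≤ 2 * L by positivity)
    rw [show (2 * L) ^ 2 / (4 * L ^ 2) = 1 by field_simp; ring] at h3
    have e1 : exp (-1 : ℝ) ≤ 1 / 2 := by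
      rw [exp_neg, inv_le_comm₀ (exp_pos _) (by norm_num)]
      linarith [add_one_le_exp (1:ℝ)]
    have e2 : exp (-(2 * (n:ℝ))) < 1 / 4 := by
      refine (exp_le_exp.2 (show -(2 * (n:ℝ)) ≤ -2 by linarith)).trans_lt ?_
      have h4 := quadratic_le_exp_of_nonneg (show (0:ℝ) ≤ 2 by norm_num)
      rw [exp_neg, inv_lt_comm₀ (exp_pos _) (by norm_num)]
      linarith
    linarith
  have hsub : {g | 4 * V + 2 * K + 2 * K * √κ < f g} ∩ Ev β n
      ⊆ {g | c + 2 * K * √κ ≤ F g} := by
    rintro g ⟨hg, hgE⟩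
    rw [Set.mem_ofPred_eq] at hg ⊢
    rw [hFe g hgE]
    linarith
  refine (measureReal_mono hsub).trans ((lipschitz_tail hFc hL hFl (by positivity)).trans_eq ?_)
  congr 1
  simp only [L]
  rw [mul_pow, mul_pow, div_pow, sq_sqrt hκ, sq_sqrt (Nat.cast_nonneg n)]
  field_simp
  ring

end Vale.Agent.P150.Beta1.Words
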