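import Mathlib
import Vale.Agent.P150.Beta1.Words.Basic
import Vale.Agent.P150.Beta1.Words.Moments

/-!
# Words in Gaussian couplings as functions of the disorder
-/

namespace Vale.Agent.P150.Beta1.Words

open MeasureTheory ProbabilityTheory Finset Real

variable {n : ℕ} {d : Fin n → ℝ} {l : List (Fin n → ℝ)}

/-- A word in the couplings built from the array `g`. -/
noncomputable def W (β : ℝ) (d : Fin n → ℝ) (l : List (Fin n → ℝ)) (g : Fin n × Fin n → ℝ) :
    Matrix (Fin n) (Fin n) ℝ := word (skCoupling β g) d l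

/-- The normalised trace. -/
noncomputable def trW (β : ℝ) (d : Fin n → ℝ) (l : List (Fin n → ℝ))
    (g : Fin n × Fin n → ℝ) : ℝ := (∑ k, W β d l g k k) / n

lemma continuous_W (β : ℝ) : ∀ (l : List (Fin n → ℝ)) (d : Fin n → ℝ) (i k : Fin n),
    Continuous fun g => W β d l g i k
  | [], d, i, k => continuous_const
  | e :: r, d, i, k => by
    simp only [W, word_cons_apply]
    exact continuous_const.mul (continuous_finsetSum _ fun a _ =>
      (skCoupling_continuous β i a).mul (continuous_W β r e a k))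

lemma continuous_trW (β : ℝ) : Continuous fun g => trW β d l g :=
  (continuous_finsetSum _ fun k _ => continuous_W β l d k k).div_const _

lemma W_abs_le (β : ℝ) {m : ℕ} (hd : Box d) (hl : ∀ e ∈ l, Box e) (hm : l.length ≤ m)
    (g : Fin n × Fin n → ℝ) (i k : Fin n) : |W β d l g i k| ≤ crude β g ^ m :=
  (word_entry_le (opSq_crude β g) (one_le_crude β g) hd hl i k).trans
    (pow_le_pow_right₀ (one_le_crude β g) hm)

lemma integrable_W (β : ℝ) (hd : Box d) (hl : ∀ e ∈ l, Box e) (i k : Fin n) :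
    Integrable (fun g => W β d l g i k) (gauss (Fin n × Fin n)) :=
  integrable_of_crude (A := 1) (continuous_W β l d i k) fun g => by
    rw [one_mul]; exact W_abs_le β hd hl le_rfl g i k

lemma trW_abs_le (β : ℝ) {m : ℕ} (hd : Box d) (hl : ∀ e ∈ l, Box e) (hm : l.length ≤ m)
    (hn : 0 < n) (g : Fin n × Fin n → ℝ) : |trW β d l g| ≤ crude β g ^ m := by
  have hn' : (0:ℝ) < n := Nat.cast_pos.2 hn
  rw [trW, abs_div, abs_of_pos hn', div_le_iff₀ hn']
  refine (abs_sum_le_sum_abs _ _).trans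
    ((sum_le_sum fun k _ => W_abs_le β hd hl hm g k k).trans_eq ?_)
  simp [mul_comm]

/-- The Lipschitz constant, times `√n`, of words of length at most `m`. -/
noncomputable def lipK (β : ℝ) (m : ℕ) : ℝ := √((4 * radSq β) ^ m * (2 * β ^ 2 + 1))

lemma lipK_pos (β : ℝ) (m : ℕ) : 0 < lipK β m := by
  have := one_le_radSq β
  unfold lipK
  positivity

lemma W_frob_lip (β : ℝ) {m : ℕ} (hd : Box d) (hl : ∀ e ∈ l, Box e) (hm : l.length ≤ m)
    {g g' : Fin n × Fin n → ℝ} (hg : g ∈ Ev β n) (hg' : g' ∈ Ev β n) :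
    √(∑ i, ∑ k, (W β d l g i k - W β d l g' i k) ^ 2) ≤ lipK β m / √n * dist2 g g' := by
  have hR := one_le_radSq β
  have h1 := word_sub_frob hg hg' (skCoupling_symm β g) hR l d hd hl
  have h2 : ∑ i, ∑ k, (skCoupling β g i k - skCoupling β g' i k) ^ 2
      ≤ (2 * β ^ 2 + 1) / n * ∑ p, (g p - g' p) ^ 2 := by
    simp only [← skCoupling_sub]
    refine (frob_coupling_le β (g - g')).trans (mul_le_mul_of_nonneg_right ?_
      (sum_nonneg fun p _ => sq_nonneg _))
    exact div_le_div_of_nonneg_right (by linarith) (Nat.cast_nonneg n)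
  have h3 : (4 * radSq β) ^ l.length ≤ (4 * radSq β) ^ m :=
    pow_le_pow_right₀ (by linarith) hm
  have h4 := h1.trans (mul_le_mul h3 h2
    (sum_nonneg fun i _ => sum_nonneg fun k _ => sq_nonneg _) (by positivity))
  refine (sqrt_le_sqrt h4).trans_eq ?_
  rw [lipK, dist2, ← mul_assoc, ← mul_div_assoc, sqrt_mul (by positivity),
    sqrt_div (by positivity)]

lemma W_entry_lip (β : ℝ) {m : ℕ} (hd : Box d) (hl : ∀ e ∈ l, Box e) (hm : l.length ≤ m)
    (i k : Fin n) : LipOn (fun g => W β d l g i k) (lipK β m / √n) (Ev β n) := by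
  intro g hg g' hg'
  refine le_trans ?_ (W_frob_lip β hd hl hm hg hg')
  rw [← sqrt_sq_eq_abs]
  refine sqrt_le_sqrt ?_
  refine le_trans ?_ (single_le_sum (f := fun a => ∑ b, (W β d l g a b - W β d l g' a b) ^ 2)
    (fun a _ => sum_nonneg fun b _ => sq_nonneg _) (mem_univ i))
  exact single_le_sum (f := fun b => (W β d l g i b - W β d l g' i b) ^ 2)
    (fun b _ => sq_nonneg _) (mem_univ k)

lemma trW_lip (β : ℝ) {m : ℕ} (hd : Box d) (hl : ∀ e ∈ l, Box e) (hm : l.length ≤ m)
    (hn : 0 < n) : LipOn (fun g => trW β d l g) (lipK β m / √n) (Ev β n) := by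
  intro g hg g' hg'
  refine le_trans ?_ (W_frob_lip β hd hl hm hg hg')
  rw [← sqrt_sq_eq_abs]
  refine sqrt_le_sqrt ?_
  have hn' : (1:ℝ) ≤ n := Nat.one_le_cast.2 hn
  simp only [trW]
  rw [← sub_div, ← sum_sub_distrib, div_pow]
  refine (div_le_div_of_nonneg_right sq_sum_le_card_mul_sum_sq (by positivity)).trans ?_
  rw [card_univ, Fintype.card_fin, sq (n:ℝ), mul_div_mul_left _ _ (by positivity)]
  refine (div_le_self (sum_nonneg fun k _ => sq_nonneg _) hn').trans ?_
  exact sum_le_sum fun k _ => single_le_sum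
    (f := fun b => (W β d l g k b - W β d l g' k b) ^ 2) (fun b _ => sq_nonneg _) (mem_univ k)

/-- Central moments of functions with the bounds of a word. -/
lemma central (β : ℝ) (m : ℕ) : ∃ C, 0 ≤ C ∧ ∀ n : ℕ, 0 < n →
    ∀ f : (Fin n × Fin n → ℝ) → ℝ, Continuous f → (∀ g, |f g| ≤ crude β g ^ m) →
      LipOn f (lipK β m / √n) (Ev β n) →
      Integrable (fun g => (f g - ∫ x, f x ∂gauss (Fin n × Fin n)) ^ 4) (gauss (Fin n × Fin n)) ∧
      Integrable (fun g => (f g - ∫ x, f x ∂gauss (Fin n × Fin n)) ^ 2) (gauss (Fin n × Fin n)) ∧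
      ∫ g, (f g - ∫ x, f x ∂gauss (Fin n × Fin n)) ^ 4 ∂gauss (Fin n × Fin n)
          ≤ C / (n : ℝ) ^ 2 ∧
      ∫ g, (f g - ∫ x, f x ∂gauss (Fin n × Fin n)) ^ 2 ∂gauss (Fin n × Fin n)
          ≤ C / (n : ℝ) := by
  obtain ⟨C, hC0, hC⟩ := fourth_moment β 1 (lipK β m) m (lipK_pos β m)
  refine ⟨C + 1, by linarith, fun n hn f hf hb hl => ?_⟩
  have hn' : (0:ℝ) < n := Nat.cast_pos.2 hn
  have hb' : ∀ g, |f g| ≤ 1 * crude β g ^ m := fun g => by rw [one_mul]; exact hb g
  set c := ∫ x, f x ∂gauss (Fin n × Fin n)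
  have hi : Integrable (fun g => (f g - c) ^ 4) (gauss (Fin n × Fin n)) := by
    refine integrable_of_crude (β := β) (A := (1 + |c|) ^ 4) (k := 4 * m)
      ((hf.sub continuous_const).pow 4) fun g => ?_
    rw [abs_pow, mul_comm 4 m, pow_mul, ← mul_pow]
    refine pow_le_pow_left₀ (abs_nonneg _) ((abs_sub _ _).trans ?_) 4
    rw [add_mul, one_mul]
    exact add_le_add (hb g) (le_mul_of_one_le_right (abs_nonneg c)
      (one_le_pow₀ (one_le_crude β g)))
  have h4 := hC n hn f hf hb' hl
  obtain ⟨h2i, h2⟩ := second_of_fourth (μ := gauss (Fin n × Fin n)) (h := fun g => f g - c)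
    (hf.sub continuous_const).aestronglyMeasurable hi (x := 1 / (n:ℝ)) (C := C) (by positivity)
    (h4.trans_eq (by rw [div_pow, one_pow, mul_one_div]))
  exact ⟨hi, h2i, h4.trans (div_le_div_of_nonneg_right (by linarith) (by positivity)),
    h2.trans_eq (by rw [mul_one_div])⟩

/-- Off-diagonal entries have mean zero. -/
lemma W_mean_offdiag (β : ℝ) {i k : Fin n} (h : i ≠ k) :
    ∫ g, W β d l g i k ∂gauss (Fin n × Fin n) = 0 := by
  set ε : Fin n → ℝ := fun a => if a = i then -1 else 1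
  have hε : ∀ a, ε a * ε a = 1 := fun a => by simp only [ε]; split_ifs <;> norm_num
  set R : Fin n × Fin n → Fin n × Fin n → ℝ :=
    fun p q => if p = q then ε p.1 * ε p.2 else 0
  have hR : ∀ p q, ∑ x, R p x * R q x = if p = q then 1 else 0 := by
    intro p q
    rcases eq_or_ne p q with rfl | hpq
    · simp only [R, ite_mul, zero_mul, sum_ite_eq, mem_univ, if_true]
      linear_combination ε p.2 * ε p.2 * hε p.1 + hε p.2
    · simp [R, hpq]
  have hflip : ∀ g, W β d l (rowMap R g) i k = -W β d l g i k := by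
    intro g
    have e : skCoupling β (rowMap R g) = fun a b => ε a * ε b * skCoupling β g a b := by
      funext a b
      have er : ∀ p, rowMap R g p = ε p.1 * ε p.2 * g p := fun p => by
        simp [rowMap, R, ite_mul]
      simp only [skCoupling, er]
      split_ifs <;> ring
    rw [W, e, word_gauge ε hε]
    simp [ε, h.symm, W]
  have h1 : ∫ g, W β d l g i k ∂gauss (Fin n × Fin n)
      = ∫ g, W β d l (rowMap R g) i k ∂gauss (Fin n × Fin n) := by
    conv_lhs => rw [← gauss_map_rowMap R hR]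
    exact integral_map (measurable_rowMap R).aemeasurable
      (continuous_W β l d i k).aestronglyMeasurable
  simp only [hflip, integral_neg] at h1
  linarith

lemma getD_box {l : List (Fin n → ℝ)} (hl : ∀ e ∈ l, Box e) {j : ℕ} (hj : j < l.length) :
    Box (l.getD j 0) := by
  rw [List.getD_eq_getElem l 0 hj]
  exact hl _ (List.getElem_mem hj)

end Vale.Agent.P150.Beta1.Words
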