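import Mathlib
import Vale.Agent.P150.Beta1.Words.Funcs

/-!
# The mean diagonal of a word is its free value up to `1/n`
-/

namespace Vale.Agent.P150.Beta1.Words

open MeasureTheory ProbabilityTheory Finset Real Function Matrix

variable {n : ℕ}

/-- The pairing created by one integration by parts. -/
noncomputable def pairTerm (β : ℝ) (e : Fin n → ℝ) (r : List (Fin n → ℝ)) (j : ℕ)
    (x a b y : Fin n) (g : Fin n × Fin n → ℝ) : ℝ :=
  W β e (r.take j) g x a * W β (r.getD j 0) (r.drop (j + 1)) g b y
    + W β e (r.take j) g x b * W β (r.getD j 0) (r.drop (j + 1)) g a y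

lemma continuous_pairTerm (β : ℝ) (e : Fin n → ℝ) (r : List (Fin n → ℝ)) (j : ℕ)
    (x a b y : Fin n) : Continuous (pairTerm β e r j x a b y) :=
  ((continuous_W β _ e x a).mul (continuous_W β _ _ b y)).add
    ((continuous_W β _ e x b).mul (continuous_W β _ _ a y))

lemma pairTerm_abs_le (β : ℝ) {e : Fin n → ℝ} {r : List (Fin n → ℝ)} (he : Box e)
    (hr : ∀ u ∈ r, Box u) {j : ℕ} (hj : j < r.length) (x a b y : Fin n)
    (g : Fin n × Fin n → ℝ) :
    |pairTerm β e r j x a b y g| ≤ 2 * crude β g ^ (2 * r.length) := by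
  have hP : ∀ u v, |W β e (r.take j) g u v| ≤ crude β g ^ r.length := fun u v =>
    W_abs_le β he (fun w hw => hr w (List.mem_of_mem_take hw)) (by simp) g u v
  have hS : ∀ u v, |W β (r.getD j 0) (r.drop (j + 1)) g u v| ≤ crude β g ^ r.length :=
    fun u v => W_abs_le β (getD_box hr hj) (fun w hw => hr w (List.mem_of_mem_drop hw))
      (by simp) g u v
  have h0 : 0 ≤ crude β g ^ r.length := pow_nonneg (zero_le_one.trans (one_le_crude β g)) _
  refine (abs_add_le _ _).trans ?_
  rw [abs_mul, abs_mul, two_mul, two_mul, pow_add]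
  exact add_le_add (mul_le_mul (hP _ _) (hS _ _) (abs_nonneg _) h0)
    (mul_le_mul (hP _ _) (hS _ _) (abs_nonneg _) h0)

lemma integrable_pairTerm (β : ℝ) {e : Fin n → ℝ} {r : List (Fin n → ℝ)} (he : Box e)
    (hr : ∀ u ∈ r, Box u) {j : ℕ} (hj : j < r.length) (x a b y : Fin n) :
    Integrable (pairTerm β e r j x a b y) (gauss (Fin n × Fin n)) :=
  integrable_of_crude (continuous_pairTerm β e r j x a b y)
    (pairTerm_abs_le β he hr hj x a b y)

lemma skCoupling_update (β : ℝ) (g : Fin n × Fin n → ℝ) {a b : Fin n} (hab : a < b) (s : ℝ)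
    (u v : Fin n) :
    skCoupling β (update g (a, b) s) u v = skCoupling β g u v
      + (s - g (a, b)) * ((β / √n) *
        ((Matrix.single a b (1:ℝ) + Matrix.single b a (1:ℝ)) u v)) := by
  simp only [skCoupling, Matrix.add_apply, Matrix.single_apply]
  rcases lt_trichotomy u v with h | rfl | h
  · have h1 : ¬(b = u ∧ a = v) := fun e => lt_asymm hab (e.1 ▸ e.2 ▸ h)
    rw [if_pos h, if_pos h, if_neg h1]
    by_cases h2 : a = u ∧ b = v
    · obtain ⟨rfl, rfl⟩ := h2
      rw [update_self, if_pos ⟨rfl, rfl⟩]
      ring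
    · rw [update_of_ne (fun e => h2 ⟨(Prod.ext_iff.1 e).1.symm, (Prod.ext_iff.1 e).2.symm⟩),
        if_neg h2]
      ring
  · have h1 : ¬(a = u ∧ b = u) := fun e => hab.ne (e.1.trans e.2.symm)
    simp [h1, and_comm (a := b = u)]
  · have h1 : ¬(a = u ∧ b = v) := fun e => lt_asymm hab (e.1 ▸ e.2 ▸ h)
    rw [if_neg h.not_gt, if_pos h, if_neg h.not_gt, if_pos h, if_neg h1]
    by_cases h2 : b = u ∧ a = v
    · obtain ⟨rfl, rfl⟩ := h2
      rw [update_self, if_pos ⟨rfl, rfl⟩]
      ring
    · rw [update_of_ne (fun e => h2 ⟨(Prod.ext_iff.1 e).2.symm, (Prod.ext_iff.1 e).1.symm⟩),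
        if_neg h2]
      ring

/-- Integration by parts on one coupling. -/
lemma ibp_entry (β : ℝ) {e : Fin n → ℝ} {r : List (Fin n → ℝ)} (he : Box e)
    (hr : ∀ u ∈ r, Box u) {a b : Fin n} (hab : a < b) (x y : Fin n) :
    ∫ g, skCoupling β g a b * W β e r g x y ∂gauss (Fin n × Fin n)
      = β ^ 2 / n * ∑ j ∈ range r.length,
          ∫ g, pairTerm β e r j x a b y g ∂gauss (Fin n × Fin n) := by
  set c := β / √n
  set G : (Fin n × Fin n → ℝ) → ℝ :=
    fun g => c * ∑ j ∈ range r.length, pairTerm β e r j x a b y g with hG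
  have hd : ∀ g, HasDerivAt (fun s => W β e r (update g (a, b) s) x y) (G g) (g (a, b)) := by
    intro g
    have hJ : ∀ u v, HasDerivAt (fun s => skCoupling β (update g (a, b) s) u v)
        ((c • (Matrix.single a b (1:ℝ) + Matrix.single b a (1:ℝ))) u v) (g (a, b)) := by
      intro u v
      simp only [skCoupling_update β g hab, Matrix.smul_apply, smul_eq_mul]
      simpa using (((hasDerivAt_id (g (a, b))).sub_const (g (a, b))).mul_const
        (c * (Matrix.single a b (1:ℝ) + Matrix.single b a (1:ℝ)) u v)).const_add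
        (skCoupling β g u v)
    refine (hasDerivAt_word hJ r e x y).congr_deriv ?_
    simp only [update_eq_self, hG, Matrix.sum_apply, mul_sum]
    refine sum_congr rfl fun j _ => ?_
    simp [pairTerm, W, Matrix.mul_apply, Matrix.add_mul, Matrix.single_apply, mul_add,
      sum_add_distrib, ite_and]
    ring
  have hGc : Continuous G :=
    continuous_const.mul (continuous_finsetSum _ fun j _ => continuous_pairTerm β e r j x a b y)
  have hGb : ∀ g, |G g| ≤ (|c| * (r.length * 2)) * crude β g ^ (2 * r.length) := fun g => by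
    rw [hG, abs_mul, mul_assoc]
    refine mul_le_mul_of_nonneg_left ((abs_sum_le_sum_abs _ _).trans
      ((sum_le_sum fun j hj => pairTerm_abs_le β he hr (mem_range.1 hj) x a b y g).trans_eq ?_))
      (abs_nonneg c)
    rw [sum_const, card_range, nsmul_eq_mul]
    ring
  have h := gauss_ibp (a, b) (continuous_W β r e x y) hGc hd
    (polyGrowth_of_crude (A := 1) fun g => by rw [one_mul]; exact W_abs_le β he hr le_rfl g x y)
    (polyGrowth_of_crude hGb)
  have e1 : ∀ g : Fin n × Fin n → ℝ, skCoupling β g a b * W β e r g x y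
      = c * (g (a, b) * W β e r g x y) := fun g => by
    simp only [skCoupling, if_pos hab]
    ring
  simp only [e1]
  rw [integral_const_mul, h, hG, integral_const_mul,
    integral_finsetSum _ fun j hj => integrable_pairTerm β he hr (mem_range.1 hj) x a b y,
    ← mul_assoc, div_mul_div_comm, mul_self_sqrt (Nat.cast_nonneg n), ← sq]

lemma W_diag_expand (β : ℝ) {d e : Fin n → ℝ} {r : List (Fin n → ℝ)} (he : Box e)
    (hr : ∀ u ∈ r, Box u) (i : Fin n) :
    ∫ g, W β d (e :: r) g i i ∂gauss (Fin n × Fin n)
      = d i * ∑ j ∈ range r.length, β ^ 2 / n *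
          ∑ k ∈ univ.erase i, ∫ g, pairTerm β e r j k k i i g ∂gauss (Fin n × Fin n) := by
  simp only [W, word_cons_apply]
  rw [integral_const_mul, integral_finsetSum]
  · congr 1
    rw [← add_sum_erase _ _ (mem_univ i)]
    simp only [skCoupling_self, zero_mul, integral_zero, zero_add, mul_sum]
    rw [sum_comm]
    refine sum_congr rfl fun k hk => ?_
    rw [← mul_sum]
    rcases lt_or_gt_of_ne (ne_of_mem_erase hk) with h | h
    · simp only [skCoupling_symm β _ i k]
      exact ibp_entry β he hr h k i
    · refine (ibp_entry β he hr h k i).trans ?_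
      congr 1
      refine sum_congr rfl fun j _ => integral_congr_ae (ae_of_all _ fun g => ?_)
      simp only [pairTerm]
      ring
  · intro k _
    refine integrable_of_crude (β := β) (A := 1) (k := r.length + 1)
      ((skCoupling_continuous β i k).mul (continuous_W β r e k i)) fun g => ?_
    rw [one_mul, abs_mul, pow_succ']
    refine mul_le_mul ?_ (W_abs_le β he hr le_rfl g k i) (abs_nonneg _)
      (zero_le_one.trans (one_le_crude β g))
    refine abs_le_of_sq_le_sq (le_trans ?_ (le_self_pow₀ (one_le_crude β g) two_ne_zero))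
      (zero_le_one.trans (one_le_crude β g))
    have h1 := opSq_crude β g (Pi.single k 1)
    simp [act, Pi.single_apply] at h1
    exact (single_le_sum (f := fun a => skCoupling β g a k ^ 2) (fun a _ => sq_nonneg _)
      (mem_univ i)).trans h1

/-- The mean diagonal is the free value up to order `1/n`. -/
theorem bias (β : ℝ) : ∀ fuel : ℕ, ∃ C, 0 ≤ C ∧ ∀ n : ℕ, ∀ (d : Fin n → ℝ)
    (l : List (Fin n → ℝ)), Box d → (∀ e ∈ l, Box e) → l.length ≤ fuel → ∀ i : Fin n,
      |(∫ g, W β d l g i i ∂gauss (Fin n × Fin n)) - freeVal β fuel d l i| ≤ C / n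
  | 0 => by
    refine ⟨0, le_rfl, fun n d l hd hl hlen i => ?_⟩
    rw [List.length_eq_zero_iff.1 (Nat.le_zero.1 hlen)]
    simp [W, word, freeVal]
  | f + 1 => by
    obtain ⟨Cf, hCf, hb⟩ := bias β f
    obtain ⟨Cv, hCv, hv⟩ := central β f
    obtain ⟨C1, hC1, h1⟩ := mean_le β 1 (radSq β ^ f) f
    obtain ⟨C3, hC3, h3⟩ := mean_le β 3 (3 * radSq β ^ f) f
    set D := β ^ 2 * (Cv + C3 + Cf * C1 + (C1 + Cf) * Cf)
    refine ⟨(f + 1) * D, by positivity, fun n d l hd hl hlen i => ?_⟩
    have hn : 0 < n := Fin.pos i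
    have hn' : (0:ℝ) < n := Nat.cast_pos.2 hn
    have hn1 : (1:ℝ) ≤ n := Nat.one_le_cast.2 hn
    rcases l with _ | ⟨e, r⟩
    · simp only [W, word, freeVal, Matrix.diagonal_apply_eq, integral_const, probReal_univ,
        one_smul, sub_self, abs_zero]
      positivity
    have he : Box e := hl e (List.mem_cons_self ..)
    have hr : ∀ u ∈ r, Box u := fun u hu => hl u (List.mem_cons_of_mem _ hu)
    have hrl : r.length ≤ f := by simpa using hlen
    set μ := gauss (Fin n × Fin n)
    rw [W_diag_expand β he hr i]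
    simp only [freeVal]
    rw [← mul_sub, ← sum_sub_distrib, abs_mul]
    refine (mul_le_of_le_one_left (abs_nonneg _) (hd i)).trans
      ((abs_sum_le_sum_abs _ _).trans ?_)
    have hD : 0 ≤ D := by positivity
    suffices h : ∀ j ∈ range r.length,
        |β ^ 2 / n * ∑ k ∈ univ.erase i, ∫ g, pairTerm β e r j k k i i g ∂μ
          - β ^ 2 * avg (freeVal β f e (r.take j)) * freeVal β f (r.getD j 0) (r.drop (j + 1)) i|
        ≤ D / n by
      refine (sum_le_sum h).trans ?_
      rw [sum_const, card_range, nsmul_eq_mul, ← mul_div_assoc]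
      refine div_le_div_of_nonneg_right (mul_le_mul_of_nonneg_right ?_ hD) hn'.le
      exact_mod_cast hrl.trans (Nat.le_succ f)
    intro j hj
    have hj := mem_range.1 hj
    set P := W β e (r.take j)
    set S := W β (r.getD j 0) (r.drop (j + 1))
    have hPb : ∀ u ∈ r.take j, Box u := fun w hw => hr w (List.mem_of_mem_take hw)
    have hSb : ∀ u ∈ r.drop (j + 1), Box u := fun w hw => hr w (List.mem_of_mem_drop hw)
    have hsd := getD_box hr hj
    have hPl : (r.take j).length ≤ f := by simp; omega
    have hSl : (r.drop (j + 1)).length ≤ f := by simp; omega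
    set T := trW β e (r.take j)
    set Rem : (Fin n × Fin n → ℝ) → ℝ :=
      fun g => ∑ k, P g k i * S g k i - 2 * (P g i i * S g i i)
    have hpt : ∀ g, ∑ k ∈ univ.erase i, pairTerm β e r j k k i i g
        = n * (T g * S g i i) + Rem g := by
      intro g
      rw [sum_erase_eq_sub (mem_univ i)]
      simp only [pairTerm, T, trW, Rem, P, S]
      rw [sum_add_distrib, ← sum_mul, ← mul_assoc, mul_div_cancel₀ _ hn'.ne']
      ring
    have hbound : ∀ (S' : ℝ) (g : Fin n × Fin n → ℝ), 1 ≤ S' → OpSq (skCoupling β g) S' →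
        |Rem g| ≤ 3 * S' ^ f := by
      intro S' g hS' hop
      have hS0 : 0 ≤ S' := zero_le_one.trans hS'
      have hA : ∑ k, P g k i ^ 2 ≤ S' ^ f :=
        (word_col_le hop hS0 he hPb i).trans (pow_le_pow_right₀ hS' hPl)
      have hB : ∑ k, S g k i ^ 2 ≤ S' ^ f :=
        (word_col_le hop hS0 hsd hSb i).trans (pow_le_pow_right₀ hS' hSl)
      have a1 := single_le_sum (f := fun k => P g k i ^ 2) (fun k _ => sq_nonneg _) (mem_univ i)
      have a2 := single_le_sum (f := fun k => S g k i ^ 2) (fun k _ => sq_nonneg _) (mem_univ i)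
      have a3 : ∀ u v : ℝ, |u * v| ≤ (u ^ 2 + v ^ 2) / 2 := fun u v => by
        rw [abs_mul, ← sq_abs u, ← sq_abs v]
        have := two_mul_le_add_sq |u| |v|
        linarith
      have a4 : |∑ k, P g k i * S g k i|
          ≤ ((∑ k, P g k i ^ 2) + ∑ k, S g k i ^ 2) / 2 := by
        refine (abs_sum_le_sum_abs _ _).trans ((sum_le_sum fun k _ => a3 _ _).trans_eq ?_)
        rw [← sum_div, sum_add_distrib]
      have a5 := a3 (P g i i) (S g i i)
      calc |Rem g| ≤ |∑ k, P g k i * S g k i| + |2 * (P g i i * S g i i)| := abs_sub _ _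
        _ ≤ _ := by rw [abs_mul, abs_two]; linarith
    have hcT : Continuous T := continuous_trW β
    have hcS : Continuous fun g => S g i i := continuous_W β _ _ i i
    have hcR : Continuous Rem := (continuous_finsetSum _ fun k _ =>
        (continuous_W β _ e k i).mul (continuous_W β _ _ k i)).sub
      (continuous_const.mul ((continuous_W β _ e i i).mul hcS))
    have hTb : ∀ g, |T g| ≤ crude β g ^ f := fun g => trW_abs_le β he hPb hPl hn g
    have hSv : ∀ g, |S g i i| ≤ crude β g ^ f := fun g => W_abs_le β hsd hSb hSl g i i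
    have hRb : ∀ g, |Rem g| ≤ 3 * crude β g ^ f := fun g =>
      hbound _ g (one_le_crude β g) (opSq_crude β g)
    have hTe : ∀ g ∈ Ev β n, |T g| ≤ radSq β ^ f := fun g hg => by
      simp only [T, trW]
      rw [abs_div, abs_of_pos hn', div_le_iff₀ hn']
      refine (abs_sum_le_sum_abs _ _).trans ((sum_le_sum fun k _ =>
        (word_entry_le hg (one_le_radSq β) he hPb k k).trans
          (pow_le_pow_right₀ (one_le_radSq β) hPl)).trans_eq ?_)
      simp [mul_comm]
    have hSe : ∀ g ∈ Ev β n, |S g i i| ≤ radSq β ^ f := fun g hg =>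
      (word_entry_le hg (one_le_radSq β) hsd hSb i i).trans
        (pow_le_pow_right₀ (one_le_radSq β) hSl)
    have iT : Integrable T μ := integrable_of_crude (A := 1) hcT fun g => by
      rw [one_mul]; exact hTb g
    have iS : Integrable (fun g => S g i i) μ := integrable_W β hsd hSb i i
    have iTS : Integrable (fun g => T g * S g i i) μ :=
      integrable_of_crude (β := β) (A := 1) (k := f + f) (hcT.mul hcS) fun g => by
        rw [one_mul, abs_mul, pow_add]
        exact mul_le_mul (hTb g) (hSv g) (abs_nonneg _)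
          (pow_nonneg (zero_le_one.trans (one_le_crude β g)) _)
    have iR : Integrable Rem μ := integrable_of_crude hcR hRb
    have mT := abs_integral_le_integral_abs.trans
      (h1 n hn T hcT (fun g => by rw [one_mul]; exact hTb g) hTe)
    have mS := abs_integral_le_integral_abs.trans
      (h1 n hn _ hcS (fun g => by rw [one_mul]; exact hSv g) hSe)
    have mR := abs_integral_le_integral_abs.trans
      (h3 n hn Rem hcR hRb fun g hg => hbound _ g (one_le_radSq β) hg)
    set a := ∫ g, T g ∂μ
    set b := ∫ g, S g i i ∂μ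
    obtain ⟨-, vTi, -, vT⟩ := hv n hn T hcT hTb (trW_lip β he hPb hPl hn)
    obtain ⟨-, vSi, -, vS⟩ := hv n hn _ hcS hSv (W_entry_lip β hsd hSb hSl i i)
    have cov : |(∫ g, T g * S g i i ∂μ) - a * b| ≤ Cv / n := by
      have e1 : (∫ g, T g * S g i i ∂μ) - a * b = ∫ g, (T g - a) * (S g i i - b) ∂μ := by
        have e2 : ∀ g, (T g - a) * (S g i i - b)
            = T g * S g i i - (b * T g + a * S g i i - a * b) := fun g => by ring
        simp only [e2]
        have i1 : Integrable (fun g => b * T g + a * S g i i) μ :=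
          (iT.const_mul b).add (iS.const_mul a)
        have i2 : Integrable (fun g => b * T g + a * S g i i - a * b) μ :=
          i1.sub (integrable_const _)
        rw [integral_sub iTS i2, integral_sub i1 (integrable_const _),
          integral_add (iT.const_mul b) (iS.const_mul a), integral_const_mul, integral_const_mul,
          integral_const, probReal_univ, one_smul]
        simp only [a, b]
        ring
      rw [e1]
      refine abs_integral_le_integral_abs.trans ((integral_mono_of_nonneg
        (ae_of_all _ fun g => abs_nonneg _) ((vTi.add vSi).div_const 2)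
        (ae_of_all _ fun g => ?_)).trans ?_)
      · simp only [Pi.add_apply]
        rw [abs_mul, ← sq_abs (T g - a), ← sq_abs (S g i i - b)]
        have := two_mul_le_add_sq |T g - a| |S g i i - b|
        linarith
      · simp only [Pi.add_apply]
        rw [integral_div, integral_add vTi vSi]
        linarith
    have hbS := hb n (r.getD j 0) (r.drop (j + 1)) hsd hSb hSl i
    have hbT : |a - avg (freeVal β f e (r.take j))| ≤ Cf / n := by
      simp only [a, T, trW, avg, Fintype.card_fin]
      rw [integral_div, integral_finsetSum _ fun k _ => integrable_W β he hPb k k, ← sub_div,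
        ← sum_sub_distrib, abs_div, abs_of_pos hn', div_le_iff₀ hn']
      refine (abs_sum_le_sum_abs _ _).trans
        ((sum_le_sum fun k _ => hb n e (r.take j) he hPb hPl k).trans_eq ?_)
      simp [mul_comm]
    set fT := avg (freeVal β f e (r.take j))
    set fS := freeVal β f (r.getD j 0) (r.drop (j + 1)) i
    have hfT : |fT| ≤ C1 + Cf := by
      have := abs_sub_abs_le_abs_sub fT a
      rw [abs_sub_comm] at this
      have : Cf / (n:ℝ) ≤ Cf := div_le_self hCf hn1
      linarith
    have hsum : ∑ k ∈ univ.erase i, ∫ g, pairTerm β e r j k k i i g ∂μ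
        = n * (∫ g, T g * S g i i ∂μ) + ∫ g, Rem g ∂μ := by
      rw [← integral_finsetSum _ fun k _ => integrable_pairTerm β he hr hj k k i i]
      simp only [hpt]
      rw [integral_add (iTS.const_mul _) iR, integral_const_mul]
    rw [hsum]
    have e4 : β ^ 2 / n * (n * (∫ g, T g * S g i i ∂μ) + ∫ g, Rem g ∂μ) - β ^ 2 * fT * fS
        = β ^ 2 * (((∫ g, T g * S g i i ∂μ) - a * b) + (∫ g, Rem g ∂μ) / n
          + (a - fT) * b + fT * (b - fS)) := by
      field_simp
      ring
    rw [e4, abs_mul, abs_of_nonneg (sq_nonneg β)]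
    have t1 : |(∫ g, Rem g ∂μ) / n| ≤ C3 / n := by
      rw [abs_div, abs_of_pos hn']
      exact div_le_div_of_nonneg_right mR hn'.le
    have t2 : |(a - fT) * b| ≤ Cf * C1 / n := by
      rw [abs_mul]
      exact (mul_le_mul hbT mS (abs_nonneg _) (div_nonneg hCf hn'.le)).trans_eq (by ring)
    have t3 : |fT * (b - fS)| ≤ (C1 + Cf) * Cf / n := by
      rw [abs_mul]
      exact (mul_le_mul hfT hbS (abs_nonneg _) (by positivity)).trans_eq (by ring)
    calc β ^ 2 * |_| ≤ β ^ 2 * (Cv / n + C3 / n + Cf * C1 / n + (C1 + Cf) * Cf / n) := by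
          refine mul_le_mul_of_nonneg_left ?_ (sq_nonneg β)
          refine ((abs_add_le _ _).trans (add_le_add ((abs_add_le _ _).trans
            (add_le_add ((abs_add_le _ _).trans (add_le_add cov t1)) t2)) t3))
      _ = _ := by simp only [D]; ring

end Vale.Agent.P150.Beta1.Words
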