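import Mathlib
import Vale.Agent.P150.Beta1.Words.Mean

/-!
# Tails at fixed diagonals, and reduction of the unit box to sign vectors
-/

namespace Vale.Agent.P150.Beta1.Words

open MeasureTheory ProbabilityTheory Finset Real

variable {n : ℕ}

/-- Entries `1` or `-1`. -/
def IsSign (v : Fin n → ℝ) : Prop := ∀ i, v i = 1 ∨ v i = -1

lemma IsSign.box {v : Fin n → ℝ} (h : IsSign v) : Box v := fun i => by
  rcases h i with e | e <;> simp [e]

/-- A property stable under convex combinations holds on the box if it holds at the vertices. -/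
lemma box_of_sign {P : (Fin n → ℝ) → Prop}
    (hP : ∀ v v₁ v₂ : Fin n → ℝ, ∀ a : ℝ, 0 ≤ a → a ≤ 1 → Box v₁ → Box v₂ →
      (∀ i, v i = a * v₁ i + (1 - a) * v₂ i) → P v₁ → P v₂ → P v)
    (h : ∀ v, IsSign v → P v) {v : Fin n → ℝ} (hv : Box v) : P v := by
  suffices key : ∀ (s : Finset (Fin n)) (v : Fin n → ℝ), Box v →
      (∀ k ∉ s, v k = 1 ∨ v k = -1) → P v from key univ v hv fun k hk => absurd (mem_univ k) hk
  intro s
  induction s using Finset.induction_on with
  | empty => exact fun v _ hs => h v fun i => hs i (notMem_empty i)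
  | @insert k s _ ih =>
    intro v hb hs
    have hu : ∀ t : ℝ, t = 1 ∨ t = -1 → Box (Function.update v k t) ∧
        ∀ x ∉ s, Function.update v k t x = 1 ∨ Function.update v k t x = -1 := by
      intro t ht
      refine ⟨fun i => ?_, fun x hx => ?_⟩
      · rcases eq_or_ne i k with rfl | hne
        · rcases ht with rfl | rfl <;> simp
        · rw [Function.update_of_ne hne]; exact hb i
      · rcases eq_or_ne x k with rfl | hne
        · simpa using ht
        · rw [Function.update_of_ne hne]; exact hs x (by simp [hne, hx])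
    obtain ⟨b1, s1⟩ := hu 1 (Or.inl rfl)
    obtain ⟨b2, s2⟩ := hu (-1) (Or.inr rfl)
    obtain ⟨hlo, hhi⟩ := abs_le.1 (hb k)
    refine hP v _ _ ((1 + v k) / 2) (by linarith) (by linarith) b1 b2 (fun i => ?_)
      (ih _ b1 s1) (ih _ b2 s2)
    rcases eq_or_ne i k with rfl | hne
    · simp only [Function.update_self]; ring
    · simp only [Function.update_of_ne hne]; ring

/-- The same for lists of vectors. -/
lemma list_of_sign {Q : List (Fin n → ℝ) → Prop} {N : ℕ}
    (hQ : ∀ pre post : List (Fin n → ℝ), (∀ u ∈ pre, Box u) → (∀ u ∈ post, Box u) →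
      ∀ v v₁ v₂ : Fin n → ℝ, ∀ a : ℝ, 0 ≤ a → a ≤ 1 → Box v₁ → Box v₂ →
        (∀ i, v i = a * v₁ i + (1 - a) * v₂ i) →
        Q (pre ++ v₁ :: post) → Q (pre ++ v₂ :: post) → Q (pre ++ v :: post))
    (h : ∀ L : List (Fin n → ℝ), L.length = N → (∀ u ∈ L, IsSign u) → Q L) :
    ∀ L pre : List (Fin n → ℝ), (∀ u ∈ L, Box u) → (∀ u ∈ pre, IsSign u) →
      pre.length + L.length = N → Q (pre ++ L)
  | [], pre, _, hp, hlen => by simpa using h pre (by simpa using hlen) hp
  | v :: L, pre, hL, hp, hlen => by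
    have hL' : ∀ u ∈ L, Box u := fun u hu => hL u (List.mem_cons_of_mem _ hu)
    refine box_of_sign (P := fun v => Q (pre ++ v :: L))
      (hQ pre L (fun u hu => (hp u hu).box) hL') (fun w hw => ?_) (hL v (List.mem_cons_self ..))
    have := list_of_sign hQ h L (pre ++ [w]) hL'
      (fun u hu => by
        rcases List.mem_append.1 hu with hu | hu
        · exact hp u hu
        · rwa [List.mem_singleton.1 hu])
      (by simp at hlen ⊢; omega)
    simpa using this

/-- A word with all letters in a list, as a function of the disorder. -/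
noncomputable def WL (β : ℝ) (L : List (Fin n → ℝ)) (g : Fin n × Fin n → ℝ) :
    Matrix (Fin n) (Fin n) ℝ := wordL (skCoupling β g) L

lemma integrable_WL (β : ℝ) {L : List (Fin n → ℝ)} (hL : ∀ u ∈ L, Box u) (i k : Fin n) :
    Integrable (fun g => WL β L g i k) (gauss (Fin n × Fin n)) := by
  rcases L with _ | ⟨d, l⟩
  · simp [WL, wordL]
  · exact integrable_W β (hL d (List.mem_cons_self ..))
      (fun e he => hL e (List.mem_cons_of_mem _ he)) i k

/-- Centred diagonal, squared norm. -/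
noncomputable def diagSq (β : ℝ) (L : List (Fin n → ℝ)) (g : Fin n × Fin n → ℝ) : ℝ :=
  ∑ i, (WL β L g i i - ∫ x, WL β L x i i ∂gauss (Fin n × Fin n)) ^ 2

/-- The off-diagonal part. -/
noncomputable def offPart (β : ℝ) (L : List (Fin n → ℝ)) (g : Fin n × Fin n → ℝ)
    (p : Fin n × Fin n) : ℝ := if p.1 = p.2 then 0 else WL β L g p.1 p.2

/-- Fourth powers off the diagonal. -/
noncomputable def offFour (β : ℝ) (L : List (Fin n → ℝ)) (g : Fin n × Fin n → ℝ) : ℝ :=
  ∑ p, offPart β L g p ^ 4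

lemma convex_step (β : ℝ) (g : Fin n × Fin n → ℝ) (B₁ B₂ : ℝ)
    (pre post : List (Fin n → ℝ)) (hpre : ∀ u ∈ pre, Box u) (hpost : ∀ u ∈ post, Box u)
    (v v₁ v₂ : Fin n → ℝ) (a : ℝ) (ha : 0 ≤ a) (ha1 : a ≤ 1) (h₁ : Box v₁) (h₂ : Box v₂)
    (hv : ∀ i, v i = a * v₁ i + (1 - a) * v₂ i)
    (H₁ : diagSq β (pre ++ v₁ :: post) g ≤ B₁ ∧ offFour β (pre ++ v₁ :: post) g ≤ B₂)
    (H₂ : diagSq β (pre ++ v₂ :: post) g ≤ B₁ ∧ offFour β (pre ++ v₂ :: post) g ≤ B₂) :
    diagSq β (pre ++ v :: post) g ≤ B₁ ∧ offFour β (pre ++ v :: post) g ≤ B₂ := by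
  have hbox : ∀ u : Fin n → ℝ, Box u → ∀ w ∈ pre ++ u :: post, Box w := by
    intro u hu w hw
    rcases List.mem_append.1 hw with h | h
    · exact hpre w h
    · rcases List.mem_cons.1 h with rfl | h
      · exact hu
      · exact hpost w h
  have lin : ∀ g i k, WL β (pre ++ v :: post) g i k
      = a * WL β (pre ++ v₁ :: post) g i k + (1 - a) * WL β (pre ++ v₂ :: post) g i k :=
    fun g i k => wordL_linear _ hv post pre i k
  have conv : ∀ q : ℕ, Even q → ∀ x y : ℝ,
      (a * x + (1 - a) * y) ^ q ≤ a * x ^ q + (1 - a) * y ^ q := fun q hq x y => by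
    simpa using hq.convexOn_pow.2 (Set.mem_univ x) (Set.mem_univ y) ha (sub_nonneg.2 ha1)
      (by ring)
  have mix : ∀ {B x y : ℝ}, x ≤ B → y ≤ B → a * x + (1 - a) * y ≤ B := fun {B x y} hx hy => by
    have := mul_le_mul_of_nonneg_left hx ha
    have := mul_le_mul_of_nonneg_left hy (sub_nonneg.2 ha1)
    linarith
  constructor
  · refine le_trans ?_ (mix H₁.1 H₂.1)
    simp only [diagSq, mul_sum, ← sum_add_distrib]
    refine sum_le_sum fun i _ => ?_
    simp only [lin]
    rw [integral_add ((integrable_WL β (hbox _ h₁) i i).const_mul a)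
      ((integrable_WL β (hbox _ h₂) i i).const_mul (1 - a)), integral_const_mul, integral_const_mul]
    refine le_trans (le_of_eq ?_) (conv 2 ⟨1, rfl⟩ _ _)
    ring
  · refine le_trans ?_ (mix H₁.2 H₂.2)
    simp only [offFour, mul_sum, ← sum_add_distrib]
    refine sum_le_sum fun p _ => le_trans (le_of_eq ?_) (conv 4 ⟨2, rfl⟩ _ _)
    simp only [offPart, lin]
    split_ifs <;> ring

/-- The fourth-power norm. -/
noncomputable def norm4 {κ : Type*} [Fintype κ] (v : κ → ℝ) : ℝ := (∑ p, v p ^ 4) ^ (1 / 4 : ℝ)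

lemma norm4_pow {κ : Type*} [Fintype κ] (v : κ → ℝ) : norm4 v ^ 4 = ∑ p, v p ^ 4 := by
  rw [norm4, ← rpow_natCast, ← rpow_mul (sum_nonneg fun p _ => by positivity)]
  norm_num

lemma norm4_nonneg {κ : Type*} [Fintype κ] (v : κ → ℝ) : 0 ≤ norm4 v :=
  rpow_nonneg (sum_nonneg fun p _ => by positivity) _

lemma norm4_sub_le {κ : Type*} [Fintype κ] (v w : κ → ℝ) :
    |norm4 v - norm4 w| ≤ √(∑ p, (v p - w p) ^ 2) := by
  have e : ∀ u : κ → ℝ, (∑ p, |u p| ^ (4:ℝ)) ^ (1 / 4 : ℝ) = norm4 u := fun u => by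
    rw [norm4]
    congr 1
    refine sum_congr rfl fun p _ => ?_
    rw [show (4:ℝ) = ((4:ℕ) : ℝ) by norm_num, rpow_natCast]
    exact Even.pow_abs ⟨2, rfl⟩ _
  have tri : ∀ a b : κ → ℝ, norm4 (fun p => a p + b p) ≤ norm4 a + norm4 b := fun a b => by
    have := Real.Lp_add_le univ a b (p := (4:ℝ)) (by norm_num)
    rwa [e a, e b, e fun p => a p + b p] at this
  have small : ∀ u : κ → ℝ, norm4 u ≤ √(∑ p, u p ^ 2) := fun u => by
    rw [← pow_le_pow_iff_left₀ (norm4_nonneg u) (sqrt_nonneg _) (by norm_num : (4:ℕ) ≠ 0),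
      norm4_pow, show √(∑ p, u p ^ 2) ^ 4 = (√(∑ p, u p ^ 2) ^ 2) ^ 2 by ring,
      sq_sqrt (sum_nonneg fun p _ => sq_nonneg _)]
    refine le_trans (le_of_eq (sum_congr rfl fun p _ => ?_))
      (sum_sq_le_sq_sum_of_nonneg fun p _ => sq_nonneg (u p))
    ring
  have h1 := tri (fun p => v p - w p) w
  have h2 := tri (fun p => w p - v p) v
  simp only [sub_add_cancel] at h1 h2
  have s1 := small fun p => v p - w p
  have s2 := small fun p => w p - v p
  have e2 : ∑ p, (w p - v p) ^ 2 = ∑ p, (v p - w p) ^ 2 := sum_congr rfl fun p _ => by ring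
  rw [e2] at s2
  rw [abs_le]
  constructor <;> linarith

/-- Tails at fixed diagonals in the box. -/
theorem vertex_tail (β : ℝ) (m : ℕ) {κ : ℝ} (hκ : 0 ≤ κ) : ∃ B₁ B₂ : ℝ, ∀ n : ℕ, 0 < n →
    ∀ (d : Fin n → ℝ) (l : List (Fin n → ℝ)), Box d → (∀ e ∈ l, Box e) → l.length ≤ m →
      (gauss (Fin n × Fin n)).real
        ({g | B₁ < diagSq β (d :: l) g ∨ B₂ < offFour β (d :: l) g} ∩ Ev β n)
          ≤ 2 * exp (-(κ * n)) := by
  obtain ⟨C, hC0, hC⟩ := central β m
  set K := lipK β m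
  have hK : 0 < K := lipK_pos β m
  set B := 4 * (1 + C) + 2 * K + 2 * K * √κ
  have hB : 0 ≤ B := by positivity
  refine ⟨B ^ 2, B ^ 4, fun n hn d l hd hl hm => ?_⟩
  set μ := gauss (Fin n × Fin n)
  have hn' : (0:ℝ) < n := Nat.cast_pos.2 hn
  set f₁ : (Fin n × Fin n → ℝ) → ℝ := fun g => √(diagSq β (d :: l) g)
  set f₂ : (Fin n × Fin n → ℝ) → ℝ := fun g => norm4 (offPart β (d :: l) g)
  have c0 : ∀ i k, Continuous fun g => WL β (d :: l) g i k := fun i k => continuous_W β l d i k
  have c1 : Continuous fun g => diagSq β (d :: l) g :=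
    continuous_finsetSum _ fun i _ => ((c0 i i).sub continuous_const).pow 2
  have c2 : ∀ p, Continuous fun g => offPart β (d :: l) g p := fun p => by
    simp only [offPart]
    split_ifs
    exacts [continuous_const, c0 _ _]
  have hm4 : ∀ i k, Integrable (fun g =>
        (WL β (d :: l) g i k - ∫ x, WL β (d :: l) x i k ∂μ) ^ 4) μ ∧
      Integrable (fun g => (WL β (d :: l) g i k - ∫ x, WL β (d :: l) x i k ∂μ) ^ 2) μ ∧
      ∫ g, (WL β (d :: l) g i k - ∫ x, WL β (d :: l) x i k ∂μ) ^ 4 ∂μ ≤ C / (n:ℝ) ^ 2 ∧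
      ∫ g, (WL β (d :: l) g i k - ∫ x, WL β (d :: l) x i k ∂μ) ^ 2 ∂μ ≤ C / (n:ℝ) :=
    fun i k => hC n hn _ (c0 i k) (fun g => W_abs_le β hd hl hm g i k) (W_entry_lip β hd hl hm i k)
  have i1 : Integrable (fun g => diagSq β (d :: l) g) μ :=
    integrable_finsetSum _ fun i _ => (hm4 i i).2.1
  have v1 : ∫ g, diagSq β (d :: l) g ∂μ ≤ C := by
    simp only [diagSq]
    rw [integral_finsetSum _ fun i _ => (hm4 i i).2.1]
    refine (sum_le_sum fun i _ => (hm4 i i).2.2.2).trans_eq ?_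
    rw [sum_const, card_univ, Fintype.card_fin, nsmul_eq_mul, mul_div_cancel₀ _ hn'.ne']
  have hoff : ∀ p : Fin n × Fin n, Integrable (fun g => offPart β (d :: l) g p ^ 4) μ ∧
      ∫ g, offPart β (d :: l) g p ^ 4 ∂μ ≤ C / (n:ℝ) ^ 2 := by
    rintro ⟨i, k⟩
    by_cases h : i = k
    · simp only [offPart, h, if_true, zero_pow (show (4:ℕ) ≠ 0 by norm_num)]
      simp only [integrable_const, integral_zero, true_and]
      positivity
    · have e : ∫ x, WL β (d :: l) x i k ∂μ = 0 := W_mean_offdiag β h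
      have h4 := hm4 i k
      simp only [e, sub_zero] at h4
      simp only [offPart, h, if_false]
      exact ⟨h4.1, h4.2.2.1⟩
  have i2 : Integrable (fun g => offFour β (d :: l) g) μ :=
    integrable_finsetSum _ fun p _ => (hoff p).1
  have v2 : ∫ g, offFour β (d :: l) g ∂μ ≤ C := by
    simp only [offFour]
    rw [integral_finsetSum _ fun p _ => (hoff p).1]
    refine (sum_le_sum fun p _ => (hoff p).2).trans_eq ?_
    rw [sum_const, card_univ, Fintype.card_prod, Fintype.card_fin, nsmul_eq_mul]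
    push_cast
    field_simp
  have hb1 : ∀ g, f₁ g ≤ 1 + diagSq β (d :: l) g := fun g => by
    have h0 : 0 ≤ diagSq β (d :: l) g := sum_nonneg fun i _ => sq_nonneg _
    rw [sqrt_le_left (by linarith), add_sq]
    have := sq_nonneg (diagSq β (d :: l) g)
    linarith
  have hb2 : ∀ g, f₂ g ≤ 1 + offFour β (d :: l) g := fun g => by
    rw [offFour, ← norm4_pow]
    rcases le_or_gt (f₂ g) 1 with h | h
    · exact h.trans (le_add_of_nonneg_right (pow_nonneg (norm4_nonneg _) _))
    · exact (le_self_pow₀ h.le (by norm_num : (4:ℕ) ≠ 0)).trans (le_add_of_nonneg_left zero_le_one)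
  have fi1 : Integrable f₁ μ :=
    ((integrable_const (1:ℝ)).add i1).mono' c1.sqrt.aestronglyMeasurable
      (ae_of_all _ fun g => by rw [norm_eq_abs, abs_of_nonneg (sqrt_nonneg _)]; exact hb1 g)
  have fc2 : Continuous f₂ :=
    (continuous_finsetSum _ fun p _ => (c2 p).pow 4).rpow_const fun g => Or.inr (by norm_num)
  have fi2 : Integrable f₂ μ :=
    ((integrable_const (1:ℝ)).add i2).mono' fc2.aestronglyMeasurable
      (ae_of_all _ fun g => by rw [norm_eq_abs, abs_of_nonneg (norm4_nonneg _)]; exact hb2 g)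
  have m1 : ∫ g, f₁ g ∂μ ≤ 1 + C := by
    refine (integral_mono fi1 ((integrable_const 1).add i1) hb1).trans ?_
    simp only [Pi.add_apply]
    rw [integral_add (integrable_const 1) i1, integral_const, probReal_univ, one_smul]
    linarith
  have m2 : ∫ g, f₂ g ∂μ ≤ 1 + C := by
    refine (integral_mono fi2 ((integrable_const 1).add i2) hb2).trans ?_
    simp only [Pi.add_apply]
    rw [integral_add (integrable_const 1) i2, integral_const, probReal_univ, one_smul]
    linarith
  have l1 : LipOn f₁ (K / √n) (Ev β n) := fun g hg g' hg' => by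
    refine (sqrt_sq_sub_le _ _).trans (le_trans ?_ (W_frob_lip β hd hl hm hg hg'))
    refine sqrt_le_sqrt (sum_le_sum fun i _ => ?_)
    rw [sub_sub_sub_cancel_right]
    exact single_le_sum (f := fun k => (W β d l g i k - W β d l g' i k) ^ 2)
      (fun k _ => sq_nonneg _) (mem_univ i)
  have l2 : LipOn f₂ (K / √n) (Ev β n) := fun g hg g' hg' => by
    refine (norm4_sub_le _ _).trans (le_trans ?_ (W_frob_lip β hd hl hm hg hg'))
    refine sqrt_le_sqrt ?_
    rw [Fintype.sum_prod_type]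
    refine sum_le_sum fun i _ => sum_le_sum fun k _ => ?_
    simp only [offPart]
    split_ifs
    · simp [sq_nonneg]
    · exact le_rfl
  have t1 := tail_on_ev (V := 1 + C) hK (by linarith) hκ hn (fun g => sqrt_nonneg _) fi1 m1 l1
  have t2 := tail_on_ev (V := 1 + C) hK (by linarith) hκ hn (fun g => norm4_nonneg _) fi2 m2 l2
  have hsub : {g | B ^ 2 < diagSq β (d :: l) g ∨ B ^ 4 < offFour β (d :: l) g} ∩ Ev β n
      ⊆ ({g | B < f₁ g} ∩ Ev β n) ∪ ({g | B < f₂ g} ∩ Ev β n) := by
    rintro g ⟨h | h, hg⟩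
    · exact Or.inl ⟨(lt_sqrt hB).2 h, hg⟩
    · refine Or.inr ⟨?_, hg⟩
      rw [offFour, ← norm4_pow] at h
      exact lt_of_pow_lt_pow_left₀ 4 (norm4_nonneg _) h
  exact ((measureReal_mono hsub).trans (measureReal_union_le _ _)).trans
    ((add_le_add t1 t2).trans_eq (by ring))

end Vale.Agent.P150.Beta1.Words
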