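import Mathlib
import Vale.Agent.P150.Beta1.Statements
import Vale.Agent.P150.Beta1.Words.Vertices

/-!
# Words in the coupling matrix, uniformly in the diagonals
-/

namespace Vale.Agent.P150.Beta1

open MeasureTheory ProbabilityTheory Finset Filter Real Words
open scoped ENNReal Topology

/-- Words of bounded length have free diagonals and small off-diagonal entries, uniformly in the
diagonals, outside an event of probability at most `exp (-n)`. -/
theorem wordsStatement (β : ℝ) : WordsStatement β := by
  intro m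
  obtain ⟨B₁, B₂, hB⟩ := vertex_tail β m (κ := (m : ℝ) + 3) (by positivity)
  have bias' : ∀ len, len ≤ m → ∃ C, 0 ≤ C ∧ ∀ n : ℕ, ∀ (d : Fin n → ℝ) (l : List (Fin n → ℝ)),
      Box d → (∀ e ∈ l, Box e) → l.length ≤ len → ∀ i : Fin n,
        |(∫ g, W β d l g i i ∂gauss (Fin n × Fin n)) - freeVal β len d l i| ≤ C / n :=
    fun len _ => bias β len
  choose Cl hCl0 hCl using bias'
  set D := ∑ len : Fin (m + 1), Cl len.1 (Nat.lt_succ_iff.1 len.2)
  set C := max (radSq β) (max (2 * B₁ + 2 * D ^ 2) B₂)
  refine ⟨C, ?_⟩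
  filter_upwards [eventually_ge_atTop (2 * m + 3)] with n hn
  have hn0 : 0 < n := by omega
  set μ := gauss (Fin n × Fin n)
  set sgn : (Fin n → Bool) → Fin n → ℝ := fun σ i => if σ i then 1 else -1
  have hsgn : ∀ σ, IsSign (sgn σ) := fun σ i => by simp only [sgn]; split_ifs <;> simp
  set bad : (len : Fin (m + 1)) → (Fin n → Bool) × (Fin len.1 → Fin n → Bool) →
      Set (Fin n × Fin n → ℝ) := fun len p =>
    {g | B₁ < diagSq β (sgn p.1 :: List.ofFn fun a => sgn (p.2 a)) g ∨
      B₂ < offFour β (sgn p.1 :: List.ofFn fun a => sgn (p.2 a)) g} ∩ Ev β n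
  have hsub : {g | ¬GoodWords β m C (skCoupling β g)}
      ⊆ (Ev β n)ᶜ ∪ ⋃ len, ⋃ p, bad len p := by
    intro g hg
    by_contra hc
    simp only [Set.mem_union, Set.mem_compl_iff, Set.mem_iUnion, not_or, not_not, not_exists]
      at hc
    obtain ⟨hE, hnb⟩ := hc
    refine hg ⟨skCoupling_symm β g, skCoupling_self β g, fun a => (hE a).trans ?_,
      fun d l hlen hd hl => ?_⟩
    · exact mul_le_mul_of_nonneg_right (le_max_left _ _) (sum_nonneg fun i _ => sq_nonneg _)
    set len : Fin (m + 1) := ⟨l.length, Nat.lt_succ_iff.2 hlen⟩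
    have hsign : ∀ L : List (Fin n → ℝ), L.length = l.length + 1 → (∀ u ∈ L, IsSign u) →
        diagSq β L g ≤ B₁ ∧ offFour β L g ≤ B₂ := by
      intro L hL hs
      obtain ⟨d', l', rfl⟩ : ∃ d' l', L = d' :: l' := by
        rcases L with _ | ⟨d', l'⟩
        · simp at hL
        · exact ⟨d', l', rfl⟩
      have hl' : l'.length = l.length := by simpa using hL
      have e : ∀ u : Fin n → ℝ, IsSign u → sgn (fun i => decide (u i = 1)) = u := fun u hu => by
        funext i
        rcases hu i with h | h <;> simp [sgn, h]; norm_num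
      have h := hnb len (fun i => decide (d' i = 1),
        fun a i => decide ((l'[a.1]'(hl'.symm ▸ a.2)) i = 1))
      simp only [bad, Set.mem_inter_iff, hE, and_true, Set.mem_ofPred_eq, not_or, not_lt] at h
      rw [e d' (hs d' (List.mem_cons_self ..))] at h
      have e2 : (List.ofFn fun a : Fin len.1 =>
          sgn fun i => decide ((l'[a.1]'(hl'.symm ▸ a.2)) i = 1)) = l' := by
        refine List.ext_getElem (by simp [len, hl']) fun a h1 h2 => ?_
        rw [List.getElem_ofFn, e _ (hs _ (List.mem_cons_of_mem _ (List.getElem_mem h2)))]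
      rwa [e2] at h
    have hQ := list_of_sign (Q := fun L => diagSq β L g ≤ B₁ ∧ offFour β L g ≤ B₂)
      (N := l.length + 1) (convex_step β g B₁ B₂) hsign (d :: l) []
      (List.forall_mem_cons.2 ⟨hd, hl⟩) (by simp) (by simp)
    simp only [List.nil_append] at hQ
    rw [wordMat_eq]
    constructor
    · set E := fun i => ∫ x, W β d l x i i ∂μ
      have h1 : ∀ i, (word (skCoupling β g) d l i i - freeVal β l.length d l i) ^ 2
          ≤ 2 * (WL β (d :: l) g i i - E i) ^ 2 + 2 * (E i - freeVal β l.length d l i) ^ 2 :=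
        fun i => by
          have := add_sq_le (a := WL β (d :: l) g i i - E i)
            (b := E i - freeVal β l.length d l i)
          rw [show WL β (d :: l) g i i - E i + (E i - freeVal β l.length d l i)
            = word (skCoupling β g) d l i i - freeVal β l.length d l i by
              simp [WL, wordL]] at this
          linarith
      have hD : ∀ i, (E i - freeVal β l.length d l i) ^ 2 ≤ D ^ 2 / n := fun i => by
        have h2 := hCl l.length hlen n d l hd hl le_rfl i
        have h3 : Cl l.length hlen ≤ D :=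
          single_le_sum (f := fun x : Fin (m + 1) => Cl x.1 (Nat.lt_succ_iff.1 x.2))
            (fun x _ => hCl0 _ _) (mem_univ len)
        have h4 := pow_le_pow_left₀ (abs_nonneg _)
          (h2.trans (div_le_div_of_nonneg_right h3 (Nat.cast_nonneg n))) 2
        rw [sq_abs, div_pow] at h4
        refine h4.trans (div_le_div_of_nonneg_left (sq_nonneg D) (Nat.cast_pos.2 hn0) ?_)
        exact le_self_pow₀ (Nat.one_le_cast.2 hn0) two_ne_zero
      refine (sum_le_sum fun i _ => h1 i).trans ?_
      rw [sum_add_distrib, ← mul_sum, ← mul_sum]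
      refine le_trans (add_le_add (mul_le_mul_of_nonneg_left hQ.1 two_pos.le)
        (mul_le_mul_of_nonneg_left ((sum_le_sum fun i _ => hD i).trans_eq ?_) two_pos.le))
        ((le_max_left _ _).trans (le_max_right _ _))
      rw [sum_const, card_univ, Fintype.card_fin, nsmul_eq_mul,
        mul_div_cancel₀ _ (Nat.cast_ne_zero.2 hn0.ne')]
    · refine le_trans (le_of_eq ?_) (hQ.2.trans ((le_max_right _ _).trans (le_max_right _ _)))
      rw [offFour, Fintype.sum_prod_type]
      refine sum_congr rfl fun i _ => sum_congr rfl fun j _ => ?_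
      simp only [offPart, WL, wordL]
      split_ifs
      · norm_num
      · rfl
  have hbad : ∀ len p, μ.real (bad len p) ≤ 2 * exp (-(((m : ℝ) + 3) * n)) := fun len p =>
    hB n hn0 _ _ (hsgn _).box
      (List.forall_mem_ofFn_iff.2 fun a => (hsgn _).box) (by simpa using Nat.lt_succ_iff.1 len.2)
  have hcount : ∀ len : Fin (m + 1),
      ∑ p : (Fin n → Bool) × (Fin len.1 → Fin n → Bool), μ.real (bad len p)
        ≤ 2 * exp (-(2 * (n:ℝ))) := by
    intro len
    refine (sum_le_sum fun p _ => hbad len p).trans ?_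
    rw [sum_const, card_univ, Fintype.card_prod, Fintype.card_fun, Fintype.card_fun,
      Fintype.card_fun, Fintype.card_bool, Fintype.card_fin, Fintype.card_fin, nsmul_eq_mul]
    push_cast
    have h2 : (2:ℝ) ≤ exp 1 := by linarith [add_one_le_exp (1:ℝ)]
    have h3 : (2:ℝ) ^ n * ((2:ℝ) ^ n) ^ len.1 ≤ exp (((m : ℝ) + 1) * n) := by
      rw [← pow_succ', ← pow_mul]
      calc (2:ℝ) ^ (n * (len.1 + 1)) ≤ 2 ^ (n * (m + 1)) :=
            pow_le_pow_right₀ one_le_two (Nat.mul_le_mul_left n (by omega))
        _ ≤ exp 1 ^ (n * (m + 1)) := by gcongr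
        _ = _ := by rw [← exp_nat_mul, mul_one]; push_cast; ring_nf
    refine (mul_le_mul_of_nonneg_right h3 (by positivity)).trans_eq ?_
    rw [mul_left_comm, ← exp_add]
    ring_nf
  have htot : μ.real {g | ¬GoodWords β m C (skCoupling β g)} ≤ exp (-(n:ℝ)) := by
    refine (measureReal_mono hsub).trans ((measureReal_union_le _ _).trans ?_)
    have h1 := (measureReal_iUnion_fintype_le (μ := μ) fun len => ⋃ p, bad len p).trans
      (sum_le_sum fun len _ => (measureReal_iUnion_fintype_le (μ := μ) (bad len)).trans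
        (hcount len))
    rw [sum_const, card_univ, Fintype.card_fin, nsmul_eq_mul] at h1
    push_cast at h1
    refine (add_le_add (gauss_ev_compl β hn0) h1).trans ?_
    have hm : (2:ℝ) * m + 3 ≤ n := by exact_mod_cast hn
    have h5 : (2:ℝ) * m + 3 ≤ exp n := by linarith [add_one_le_exp (n:ℝ)]
    calc exp (-(2 * (n:ℝ))) + ((m:ℝ) + 1) * (2 * exp (-(2 * (n:ℝ))))
        = (2 * (m:ℝ) + 3) * exp (-(2 * (n:ℝ))) := by ring
      _ ≤ exp n * exp (-(2 * (n:ℝ))) := mul_le_mul_of_nonneg_right h5 (exp_pos _).le
      _ = _ := by rw [← exp_add]; ring_nf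
  change μ _ ≤ _
  rw [← ofReal_measureReal (measure_ne_top μ _)]
  exact ENNReal.ofReal_le_ofReal htot

end Vale.Agent.P150.Beta1
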